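import Vale.Agent.P257.H820.Main

/-!
# P257 (helper820): the interface to the construction of the truncated objects
-/

open CategoryTheory MonoidalCategory Limits Pretriangulated MonObj

universe v u

set_option linter.unusedSectionVars false

namespace Vale.Agent.P257.H820

open Vale.Agent.P251.T Vale.Agent.P251.S

section

variable {T : Type u} [Category.{v} T] [MonoidalCategory T]

/-- The iterates of `I ⊗ -` (the innermost factor first). -/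
@[reducible] def IB (I : T) : ℕ → T → T
  | 0, W => W
  | s + 1, W => IB I s (I ⊗ W)

/-- Functoriality of `IB`. -/
def IBm (I : T) : ∀ (s : ℕ) {W W' : T}, (W ⟶ W') → (IB I s W ⟶ IB I s W')
  | 0, _, _, f => f
  | s + 1, _, _, f => IBm I s (I ◁ f)

/-- The total collapse `I^{⊗ s} ⊗ W ⟶ W`. -/
def IBcol {I : T} (ε : I ⟶ 𝟙_ T) : ∀ (s : ℕ) (W : T), IB I s W ⟶ W
  | 0, W => 𝟙 W
  | s + 1, W => IBcol ε s (I ⊗ W) ≫ ep ε W

/-- Moving a factor out: `I^{⊗ s} ⊗ (X ⊗ W) ⟶ X ⊗ (I^{⊗ s} ⊗ W)`. -/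
def IBmv [SymmetricCategory T] (I X : T) : ∀ (s : ℕ) (W : T), IB I s (X ⊗ W) ⟶ X ⊗ IB I s W
  | 0, _ => 𝟙 _
  | s + 1, W => IBm I s (sw I X W) ≫ IBmv I X s (I ⊗ W)

end

variable {T : Type u} [Category.{v} T] [Preadditive T] [HasZeroObject T] [HasShift T ℤ]
  [∀ n : ℤ, (shiftFunctor T n).Additive] [Pretriangulated T] [MonoidalCategory T]
  [SymmetricCategory T] [TensorTriangulated T]

variable {R : T} [MonObj R]

/-- The truncated object `N = N_{q+1}` (the cofibre of `I^{⊗(q+1)} ⟶ 𝟙`), with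
`K ⊗ W ≅ (I^{⊗(q+1)} ⊗ W)⟦1⟧` and the lifting property. -/
structure NPack (F : UFib R) (q : ℕ) extends NData F where
  /-- `K = I^{⊗(q+1)}⟦1⟧` -/
  θ : ∀ W : T, K ⊗ W ≅ (IB F.I (q + 1) W)⟦(1 : ℤ)⟧
  θ_nat : ∀ {W W' : T} (f : W ⟶ W'),
    (K ◁ f) ≫ (θ W').hom = (θ W).hom ≫ (IBm F.I (q + 1) f)⟦(1 : ℤ)⟧'
  /-- compatibility of `θ` with the exchange of factors -/
  θ_sw : ∀ X W : T, sw K X W ≫ (X ◁ (θ W).hom) ≫ (csh X 1 (IB F.I (q + 1) W)).hom =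
    (θ (X ⊗ W)).hom ≫ (IBmv F.I X (q + 1) W)⟦(1 : ℤ)⟧'
  /-- compatibility of the boundary maps of `R` and of `N` -/
  comm : ∀ W : T, (r ▷ W) ≫ F.bI W =
    (pr ▷ W) ≫ (θ W).hom ≫ (IBcol F.ε q (F.I ⊗ W))⟦(1 : ℤ)⟧'
  /-- lifting to `N` -/
  lift : ∀ {Q W : T} (f : Q ⟶ R ⊗ W) (g : Q ⟶ K ⊗ W),
    f ≫ F.bI W = g ≫ (θ W).hom ≫ (IBcol F.ε q (F.I ⊗ W))⟦(1 : ℤ)⟧' →
      ∃ h : Q ⟶ N ⊗ W, h ≫ (r ▷ W) = f ∧ h ≫ (pr ▷ W) = g

end Vale.Agent.P257.H820
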