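import Vale.Agent.P257.H820.Mon

/-!
# P257 (helper820): the Leibniz rule, core statement

`R` a monoid (only its unit and multiplication are used), `UFib R`: the fibre `I ⟶ 𝟙` of its unit,
`NData F`: an object `N` with a unit and an augmentation `r : N ⟶ R`, whose cofibre `K` satisfies
`N ◁ κ = 0`.
-/

open CategoryTheory MonoidalCategory Limits Pretriangulated MonObj

universe v u

set_option linter.unusedSectionVars false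

namespace Vale.Agent.P257.H820

open Vale.Agent.P251.T Vale.Agent.P251.S

variable {T : Type u} [Category.{v} T] [Preadditive T] [HasZeroObject T] [HasShift T ℤ]
  [∀ n : ℤ, (shiftFunctor T n).Additive] [Pretriangulated T] [MonoidalCategory T]
  [SymmetricCategory T] [TensorTriangulated T]

/-- The isomorphism `X⟦1⟧ ⊗ W ≅ (X ⊗ W)⟦1⟧`. -/
noncomputable def shR (X W : T) : (X⟦(1 : ℤ)⟧) ⊗ W ≅ (X ⊗ W)⟦(1 : ℤ)⟧ :=
  β_ (X⟦(1 : ℤ)⟧) W ≪≫ csh W 1 X ≪≫ (shiftFunctor T (1 : ℤ)).mapIso (β_ W X)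

lemma shR_hom (X W : T) : (shR X W).hom =
    (β_ (X⟦(1 : ℤ)⟧) W).hom ≫ (csh W 1 X).hom ≫ (β_ W X).hom⟦(1 : ℤ)⟧' := rfl

@[reassoc]
lemma shR_nat_right (X : T) {W W' : T} (f : W ⟶ W') :
    ((X⟦(1 : ℤ)⟧) ◁ f) ≫ (shR X W').hom = (shR X W).hom ≫ (X ◁ f)⟦(1 : ℤ)⟧' := by
  rw [shR_hom, shR_hom, BraidedCategory.braiding_naturality_right_assoc, ← csh_tlMap_assoc]
  simp only [Category.assoc, ← Functor.map_comp, BraidedCategory.braiding_naturality_left]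

@[reassoc]
lemma shR_nat_left {X X' : T} (f : X ⟶ X') (W : T) :
    (f⟦(1 : ℤ)⟧' ▷ W) ≫ (shR X' W).hom = (shR X W).hom ≫ (f ▷ W)⟦(1 : ℤ)⟧' := by
  rw [shR_hom, shR_hom, BraidedCategory.braiding_naturality_left_assoc, csh_nat_assoc]
  simp only [Category.assoc, ← Functor.map_comp, BraidedCategory.braiding_naturality_right]

/-- The fibre of the unit of `R`. -/
structure UFib (R : T) [MonObj R] where
  /-- the fibre -/
  I : T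
  /-- the augmentation -/
  ε : I ⟶ 𝟙_ T
  /-- the boundary map -/
  dR : R ⟶ I⟦(1 : ℤ)⟧
  dist_one : Triangle.mk ε η[R] dR ∈ distTriang T

namespace UFib

variable {R : T} [MonObj R] (F : UFib R)

/-- The boundary map `R ⊗ W ⟶ (I ⊗ W)⟦1⟧`. -/
noncomputable def bI (W : T) : R ⊗ W ⟶ (F.I ⊗ W)⟦(1 : ℤ)⟧ := (F.dR ▷ W) ≫ (shR F.I W).hom

lemma bI_nat {W W' : T} (f : W ⟶ W') :
    (R ◁ f) ≫ F.bI W' = F.bI W ≫ (F.I ◁ f)⟦(1 : ℤ)⟧' := by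
  rw [bI, bI, whisker_exchange_assoc, shR_nat_right, Category.assoc]

lemma dist (W : T) : Triangle.mk (ep F.ε W) (unitMap R W) (F.bI W) ∈ distTriang T := by
  refine isomorphic_distinguished _ (tensorLeftTriangle_distinguished W _ F.dist_one) _ ?_
  refine Triangle.isoMk _ _ (β_ F.I W) (ρ_ W).symm (β_ R W) ?_ ?_ ?_
  · change ((F.ε ▷ W) ≫ (λ_ W).hom) ≫ (ρ_ W).inv = (β_ F.I W).hom ≫ (W ◁ F.ε)
    rw [← BraidedCategory.braiding_naturality_left, braiding_tensorUnit_left, Category.assoc]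
  · change ((λ_ W).inv ≫ (η[R] ▷ W)) ≫ (β_ R W).hom = (ρ_ W).inv ≫ (W ◁ η[R])
    rw [Category.assoc, BraidedCategory.braiding_naturality_left, braiding_tensorUnit_left]
    simp
  · change ((F.dR ▷ W) ≫ (shR F.I W).hom) ≫ ((β_ F.I W).hom)⟦(1 : ℤ)⟧' = (β_ R W).hom ≫
      (W ◁ F.dR) ≫ (W ◁ (TensorTriangulated.e F.I).inv) ≫
        (α_ W F.I ((𝟙_ T)⟦(1 : ℤ)⟧)).inv ≫ (TensorTriangulated.e (W ⊗ F.I)).hom
    rw [← csh_one, shR_hom, BraidedCategory.braiding_naturality_left_assoc]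
    simp only [Category.assoc, ← Functor.map_comp, SymmetricCategory.symmetry]
    simp

end UFib

omit [MonoidalCategory T] [SymmetricCategory T] [TensorTriangulated T] in
/-- A distinguished triangle whose third map is zero has a split first map. -/
lemma exists_retraction (Δ : Triangle T) (hΔ : Δ ∈ distTriang T) (h : Δ.mor₃ = 0) :
    ∃ t : Δ.obj₂ ⟶ Δ.obj₁, Δ.mor₁ ≫ t = 𝟙 _ := by
  obtain ⟨t, ht⟩ := Triangle.yoneda_exact₂ _ (inv_rot_of_distTriang _ hΔ) (𝟙 Δ.obj₁) (by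
    have h1 : Δ.invRotate.mor₁ = 0 := by
      rw [Triangle.invRotate_mor₁, h, Functor.map_zero]
      exact neg_eq_zero.2 zero_comp
    rw [h1]
    exact zero_comp)
  exact ⟨t, ht.symm⟩

/-- The truncated object `N` (the quotient by the `q`-th power of `I`). -/
structure NData {R : T} [MonObj R] (F : UFib R) where
  /-- the object -/
  N : T
  /-- the cofibre of the unit -/
  K : T
  /-- the unit -/
  un : 𝟙_ T ⟶ N
  /-- the projection -/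
  pr : N ⟶ K
  /-- the boundary map -/
  κ : K ⟶ (𝟙_ T)⟦(1 : ℤ)⟧
  dist : Triangle.mk un pr κ ∈ distTriang T
  null : N ◁ κ = 0
  /-- the augmentation -/
  r : N ⟶ R
  un_r : un ≫ r = η[R]
  r_bI : ∀ W : T, (r ▷ W) ≫ F.bI W ≫ (unitMap R (F.I ⊗ W))⟦(1 : ℤ)⟧' = 0

section RModule

variable {R : T} [MonObj R] (F : UFib R)

@[reassoc (attr := simp)]
lemma UFib.ep_unitMap (W : T) : ep F.ε W ≫ unitMap R W = 0 :=
  comp_distTriang_mor_zero₁₂ _ (F.dist W)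

/-- Lemma Z: maps to `R ⊗ W'` vanish on the image of the augmentation. -/
lemma UFib.ep_comp_eq_zero {W W' : T} (f : W ⟶ R ⊗ W') : ep F.ε W ≫ f = 0 := by
  have h : f = unitMap R W ≫ (R ◁ f) ≫ mulMap R W' := by
    rw [← unitMap_nat_assoc, unitMap_mulMap, Category.comp_id]
  rw [h, F.ep_unitMap_assoc, zero_comp]

/-- A map which dies in `R ⊗ -` lifts to `I ⊗ -`. -/
lemma UFib.exists_lift {P W : T} (f : P ⟶ W) (h : f ≫ unitMap R W = 0) :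
    ∃ g : P ⟶ F.I ⊗ W, f = g ≫ ep F.ε W :=
  Triangle.coyoneda_exact₂ _ (F.dist W) f h

/-- A map to `I ⊗ W` which dies in `W` is a boundary. -/
lemma UFib.exists_bdry {P W : T} (g : P ⟶ F.I ⊗ W) (h : g ≫ ep F.ε W = 0) :
    ∃ w : P⟦(1 : ℤ)⟧ ⟶ R ⊗ W, g⟦(1 : ℤ)⟧' = w ≫ F.bI W := by
  have h1 : g⟦(1 : ℤ)⟧' ≫ (ep F.ε W)⟦(1 : ℤ)⟧' = 0 := by
    rw [← Functor.map_comp, h, Functor.map_zero]
  exact Triangle.coyoneda_exact₁ _ (F.dist W) _ h1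

end RModule

namespace NData

variable {R : T} [MonObj R] {F : UFib R} (D : NData F)

/-- The right unit `N ⟶ N ⊗ N`, more generally `X ⟶ X ⊗ N`. -/
def ur (X : T) : X ⟶ X ⊗ D.N := (ρ_ X).inv ≫ (X ◁ D.un)

@[reassoc]
lemma ur_nat {X X' : T} (f : X ⟶ X') : f ≫ D.ur X' = D.ur X ≫ (f ▷ D.N) := by
  rw [ur, ur, Category.assoc, whisker_exchange, rightUnitor_inv_naturality_assoc]

@[reassoc]
lemma ur_braid (X : T) : D.ur X ≫ (β_ X D.N).hom = uN D.un X := by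
  rw [ur, uN, Category.assoc, BraidedCategory.braiding_naturality_right,
    braiding_tensorUnit_right]
  simp

@[reassoc (attr := simp)]
lemma un_pr : D.un ≫ D.pr = 0 := comp_distTriang_mor_zero₁₂ _ D.dist

@[reassoc (attr := simp)]
lemma pr_κ : D.pr ≫ D.κ = 0 := comp_distTriang_mor_zero₂₃ _ D.dist

/-- The triangle `X ⟶ X ⊗ N ⟶ X ⊗ K`. -/
lemma exists_of_ur {X Z : T} (f : X ⊗ D.N ⟶ Z) (h : D.ur X ≫ f = 0) :
    ∃ g : X ⊗ D.K ⟶ Z, f = (X ◁ D.pr) ≫ g := by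
  have h1 := Triangle.yoneda_exact₂ _ (tensorLeftTriangle_distinguished X _ D.dist) f (by
    change (X ◁ D.un) ≫ f = 0
    rw [ur, Category.assoc, ← cancel_epi (ρ_ X).inv] at *
    rw [h, comp_zero])
  exact h1

/-- The triangle `X ⟶ N ⊗ X ⟶ K ⊗ X`. -/
lemma exists_of_uN {X Z : T} (f : D.N ⊗ X ⟶ Z) (h : uN D.un X ≫ f = 0) :
    ∃ g : D.K ⊗ X ⟶ Z, f = (D.pr ▷ X) ≫ g := by
  obtain ⟨g, hg⟩ := D.exists_of_ur ((β_ X D.N).hom ≫ f) (by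
    rw [ur_braid_assoc, h])
  refine ⟨(β_ D.K X).hom ≫ g, ?_⟩
  rw [BraidedCategory.braiding_naturality_left_assoc, ← hg, SymmetricCategory.symmetry_assoc]

/-- Lemma `Z_N`: maps `𝟙⟦1⟧ ⟶ N ⊗ Z` are killed by `κ`. -/
lemma κ_comp_eq_zero {Z : T} (ζ : (𝟙_ T)⟦(1 : ℤ)⟧ ⟶ D.N ⊗ Z) (m : D.N ⊗ D.N ⟶ D.N)
    (hm : uN D.un D.N ≫ m = 𝟙 _) : D.κ ≫ ζ = 0 := by
  have h1 : uN D.un (D.N ⊗ Z) ≫ act m Z = 𝟙 _ := by
    have h2 : uN D.un (D.N ⊗ Z) = (uN D.un D.N ▷ Z) ≫ (α_ _ _ _).hom := by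
      simp [uN]
    rw [h2, act, Category.assoc, Iso.hom_inv_id_assoc, ← comp_whiskerRight, hm,
      id_whiskerRight]
  have h3 : ζ = uN D.un _ ≫ (D.N ◁ ζ) ≫ act m Z := by
    rw [← uN_nat_assoc, h1, Category.comp_id]
  rw [h3, uN_nat_assoc, D.null, zero_comp, comp_zero]

/-- The retraction `R ⊗ N ⊗ W ⟶ R ⊗ W`. -/
def ret (W : T) : R ⊗ (D.N ⊗ W) ⟶ R ⊗ W := (R ◁ (D.r ▷ W)) ≫ mulMap R W

lemma ur_R_mul : D.ur R ≫ (R ◁ D.r) ≫ μ[R] = 𝟙 R := by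
  rw [ur, Category.assoc, ← MonoidalCategory.whiskerLeft_comp_assoc, D.un_r, MonObj.mul_one]
  simp

/-- Maps `𝟙⟦1⟧ ⟶ R ⊗ Z` are killed by `κ`. -/
lemma κ_comp_eq_zero' {Z : T} (ζ : (𝟙_ T)⟦(1 : ℤ)⟧ ⟶ R ⊗ Z) : D.κ ≫ ζ = 0 := by
  have hR : R ◁ D.κ = 0 := by
    have h1 : (R ◁ D.pr) ≫ (R ◁ D.κ) = 0 := by
      rw [← MonoidalCategory.whiskerLeft_comp, D.pr_κ, MonoidalPreadditive.whiskerLeft_zero]
    -- `R ◁ un` is a split monomorphism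
    have hd := tensorLeftTriangle_distinguished R _ D.dist
    have hs : (tensorLeftTriangle R (Triangle.mk D.un D.pr D.κ)).mor₁ ≫
        ((R ◁ D.r) ≫ μ[R] ≫ (ρ_ R).inv) = 𝟙 _ := by
      change (R ◁ D.un) ≫ (R ◁ D.r) ≫ μ[R] ≫ (ρ_ R).inv = 𝟙 _
      rw [← MonoidalCategory.whiskerLeft_comp_assoc, D.un_r, MonObj.mul_one_assoc,
        Iso.hom_inv_id]
    obtain ⟨σ, h2, -⟩ := exists_section_of_retraction _ hd _ hs
    change R ⊗ D.K ⟶ R ⊗ D.N at σ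
    have h3 : σ ≫ (R ◁ D.pr) = 𝟙 (R ⊗ D.K) := h2
    have h4 : σ ≫ (R ◁ D.pr) ≫ (R ◁ D.κ) = R ◁ D.κ := by
      rw [reassoc_of% h3]
    rw [← h4, h1, comp_zero]
  have h3 : ζ = unitMap R _ ≫ (R ◁ ζ) ≫ mulMap R Z := by
    rw [← unitMap_nat_assoc, unitMap_mulMap, Category.comp_id]
  rw [h3, unitMap_nat_assoc, hR, zero_comp, comp_zero]

/-- A two-sided unital pairing exists. -/
lemma exists_pairing : ∃ m : D.N ⊗ D.N ⟶ D.N, uN D.un D.N ≫ m = 𝟙 _ ∧ D.ur D.N ≫ m = 𝟙 _ := by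
  -- a left unital one
  obtain ⟨m₀, hm₀⟩ : ∃ m₀ : D.N ⊗ D.N ⟶ D.N, uN D.un D.N ≫ m₀ = 𝟙 _ := by
    have h0 : (tensorLeftTriangle D.N (Triangle.mk D.un D.pr D.κ)).mor₃ = 0 := by
      have h5 : (D.N ◁ D.κ) ≫ (D.N ◁ (TensorTriangulated.e (𝟙_ T)).inv) ≫
        (α_ D.N (𝟙_ T) ((𝟙_ T)⟦(1 : ℤ)⟧)).inv ≫ (TensorTriangulated.e (D.N ⊗ 𝟙_ T)).hom = 0 := by
        rw [D.null, zero_comp]
      exact h5
    obtain ⟨t, ht⟩ := exists_retraction _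
      (tensorLeftTriangle_distinguished D.N _ D.dist) h0
    change D.N ⊗ D.N ⟶ D.N ⊗ 𝟙_ T at t
    change (D.N ◁ D.un) ≫ t = 𝟙 (D.N ⊗ 𝟙_ T) at ht
    refine ⟨(β_ D.N D.N).hom ≫ t ≫ (ρ_ D.N).hom, ?_⟩
    have h6 : uN D.un D.N ≫ (β_ D.N D.N).hom = D.ur D.N := by
      rw [← ur_braid, Category.assoc, SymmetricCategory.symmetry, Category.comp_id]
    rw [reassoc_of% h6, ur, Category.assoc, reassoc_of% ht, Iso.inv_hom_id]
  have h1 : D.un ≫ D.ur D.N ≫ m₀ = D.un := by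
    have h2 : D.un ≫ D.ur D.N = D.un ≫ uN D.un D.N := by
      rw [ur_nat, uN_nat, ur, uN]
      rw [Category.assoc, Category.assoc, whisker_exchange, unitors_inv_equal]
    rw [reassoc_of% h2, hm₀, Category.comp_id]
  obtain ⟨ν, hν⟩ := Triangle.yoneda_exact₂ _ D.dist (𝟙 D.N - D.ur D.N ≫ m₀) (by
    change D.un ≫ (𝟙 D.N - D.ur D.N ≫ m₀) = 0
    rw [Preadditive.comp_sub, h1, Category.comp_id, sub_self])
  change D.K ⟶ D.N at ν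
  change 𝟙 D.N - D.ur D.N ≫ m₀ = D.pr ≫ ν at hν
  refine ⟨m₀ + (D.pr ▷ D.N) ≫ (β_ D.K D.N).hom ≫ (D.N ◁ ν) ≫ m₀, ?_, ?_⟩
  · have h3 : uN D.un D.N ≫ (D.pr ▷ D.N) = 0 := by
      rw [uN_map, un_pr, uN]
      simp
    rw [Preadditive.comp_add, hm₀, reassoc_of% h3, zero_comp, add_zero]
  · rw [Preadditive.comp_add, ← ur_nat_assoc, ur_braid_assoc, ← uN_nat_assoc, hm₀,
      Category.comp_id, ← hν, add_sub_cancel]

/-- The factor lemma: a map on `N ⊗ N` which vanishes on both units factors through `K ⊗ K`. -/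
lemma exists_factor {Z : T} (hZ : ∀ ζ : (𝟙_ T)⟦(1 : ℤ)⟧ ⟶ Z, D.κ ≫ ζ = 0)
    (Φ : D.N ⊗ D.N ⟶ Z) (h1 : uN D.un D.N ≫ Φ = 0) (h2 : D.ur D.N ≫ Φ = 0) :
    ∃ Ψ : D.K ⊗ D.K ⟶ Z, Φ = (D.pr ▷ D.N) ≫ (D.K ◁ D.pr) ≫ Ψ := by
  obtain ⟨Φ₁, rfl⟩ := D.exists_of_uN Φ h1
  have h3 : D.pr ≫ D.ur D.K ≫ Φ₁ = 0 := by
    rw [ur_nat_assoc, h2]
  obtain ⟨ζ, hζ⟩ := Triangle.yoneda_exact₃ _ D.dist _ h3
  have h4 : D.ur D.K ≫ Φ₁ = 0 := by
    rw [hζ]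
    exact hZ ζ
  obtain ⟨Ψ, rfl⟩ := D.exists_of_ur Φ₁ h4
  exact ⟨Ψ, rfl⟩

/-- The product followed by the projection to `K`, pushed to `N ⊗ K`. -/
lemma exists_delta (m : D.N ⊗ D.N ⟶ D.N) (h1 : uN D.un D.N ≫ m = 𝟙 _)
    (h2 : D.ur D.N ≫ m = 𝟙 _) : ∃ Ψ : D.K ⊗ D.K ⟶ D.N ⊗ D.K,
      m ≫ D.pr ≫ uN D.un D.K = (D.N ◁ D.pr) + (D.pr ▷ D.N) ≫ (β_ D.K D.N).hom +
        (D.pr ▷ D.N) ≫ (D.K ◁ D.pr) ≫ Ψ := by
  obtain ⟨Ψ, hΨ⟩ := D.exists_factor (Z := D.N ⊗ D.K) (fun ζ => D.κ_comp_eq_zero ζ m h1)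
    (m ≫ D.pr ≫ uN D.un D.K - (D.N ◁ D.pr) - (D.pr ▷ D.N) ≫ (β_ D.K D.N).hom) (by
      have h3 : uN D.un D.N ≫ (D.pr ▷ D.N) = 0 := by
        rw [uN_map, un_pr, uN]
        simp
      rw [Preadditive.comp_sub, Preadditive.comp_sub, reassoc_of% h1, reassoc_of% h3,
        zero_comp, sub_zero, ← uN_nat, sub_self]) (by
      have h3 : D.ur D.N ≫ (D.N ◁ D.pr) = 0 := by
        rw [ur, Category.assoc, ← MonoidalCategory.whiskerLeft_comp, un_pr,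
          MonoidalPreadditive.whiskerLeft_zero, comp_zero]
      rw [Preadditive.comp_sub, Preadditive.comp_sub, reassoc_of% h2, h3, sub_zero,
        ← ur_nat_assoc, ur_braid, sub_self])
  refine ⟨Ψ, ?_⟩
  rw [← hΨ]
  abel

/-- The product is compatible with the product of `R`, up to a term which factors. -/
lemma exists_delta' (m : D.N ⊗ D.N ⟶ D.N) (h1 : uN D.un D.N ≫ m = 𝟙 _)
    (h2 : D.ur D.N ≫ m = 𝟙 _) : ∃ Ψ : D.K ⊗ D.K ⟶ R,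
      m ≫ D.r = (D.r ▷ D.N) ≫ (R ◁ D.r) ≫ μ[R] + (D.pr ▷ D.N) ≫ (D.K ◁ D.pr) ≫ Ψ := by
  obtain ⟨Ψ, hΨ⟩ := D.exists_factor (Z := R) (fun ζ => by
      have h := D.κ_comp_eq_zero' (ζ ≫ (ρ_ R).inv)
      rw [← cancel_mono (ρ_ R).inv, zero_comp, Category.assoc]
      exact h)
    (m ≫ D.r - (D.r ▷ D.N) ≫ (R ◁ D.r) ≫ μ[R]) (by
      have h3 : uN η[R] R ≫ μ[R] = 𝟙 R := by
        rw [uN, Category.assoc, MonObj.one_mul, Iso.inv_hom_id]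
      rw [Preadditive.comp_sub, reassoc_of% h1, ← whisker_exchange_assoc, ← uN_nat_assoc,
        uN_map_assoc, un_r, h3, Category.comp_id, sub_self]) (by
      rw [Preadditive.comp_sub, reassoc_of% h2, ← ur_nat_assoc, ur_R_mul, Category.comp_id,
        sub_self])
  refine ⟨Ψ, ?_⟩
  rw [← hΨ]
  abel

end NData

end Vale.Agent.P257.H820
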