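import Vale.Agent.P257.H820.Link

/-!
# P257 (helper820): the iterates of `I ⊗ -` and the shift
-/

open CategoryTheory MonoidalCategory Limits Pretriangulated MonObj

universe v u

set_option linter.unusedSectionVars false

namespace Vale.Agent.P257.H820

open Vale.Agent.P251.T Vale.Agent.P251.S

section

variable {T : Type u} [Category.{v} T] [MonoidalCategory T]

lemma IBm_zero (I : T) {W W' : T} (f : W ⟶ W') : IBm I 0 f = f := rfl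

lemma IBm_succ (I : T) (s : ℕ) {W W' : T} (f : W ⟶ W') :
    IBm I (s + 1) f = IBm I s (I ◁ f) := rfl

@[simp] lemma IBm_id (I : T) (s : ℕ) (W : T) : IBm I s (𝟙 W) = 𝟙 (IB I s W) := by
  induction s generalizing W with
  | zero => rfl
  | succ s ih => rw [IBm_succ, MonoidalCategory.whiskerLeft_id, ih]

@[reassoc]
lemma IBm_comp (I : T) (s : ℕ) {X Y Z : T} (f : X ⟶ Y) (g : Y ⟶ Z) :
    IBm I s (f ≫ g) = IBm I s f ≫ IBm I s g := by
  induction s generalizing X Y Z with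
  | zero => rfl
  | succ s ih => rw [IBm_succ, MonoidalCategory.whiskerLeft_comp, ih]; rfl

/-- `IBm` of an isomorphism. -/
@[simps] def IBmI (I : T) (s : ℕ) {W W' : T} (f : W ≅ W') : IB I s W ≅ IB I s W' where
  hom := IBm I s f.hom
  inv := IBm I s f.inv
  hom_inv_id := by rw [← IBm_comp, f.hom_inv_id, IBm_id]
  inv_hom_id := by rw [← IBm_comp, f.inv_hom_id, IBm_id]

/-- The collapse of the outermost factor. -/
def IBc {I : T} (ε : I ⟶ 𝟙_ T) : ∀ (s : ℕ) (W : T), IB I (s + 1) W ⟶ IB I s W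
  | 0, W => ep ε W
  | s + 1, W => IBc ε s (I ⊗ W)

lemma IBc_zero {I : T} (ε : I ⟶ 𝟙_ T) (W : T) : IBc ε 0 W = ep ε W := rfl

lemma IBc_succ {I : T} (ε : I ⟶ 𝟙_ T) (s : ℕ) (W : T) : IBc ε (s + 1) W = IBc ε s (I ⊗ W) := rfl

@[reassoc]
lemma IBc_nat {I : T} (ε : I ⟶ 𝟙_ T) (s : ℕ) {W W' : T} (f : W ⟶ W') :
    IBm I (s + 1) f ≫ IBc ε s W' = IBc ε s W ≫ IBm I s f := by
  induction s generalizing W W' with
  | zero => exact ep_nat ε f
  | succ s ih => exact ih (I ◁ f)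

lemma IBcol_zero {I : T} (ε : I ⟶ 𝟙_ T) (W : T) : IBcol ε 0 W = 𝟙 W := rfl

lemma IBcol_succ {I : T} (ε : I ⟶ 𝟙_ T) (s : ℕ) (W : T) :
    IBcol ε (s + 1) W = IBcol ε s (I ⊗ W) ≫ ep ε W := rfl

@[reassoc]
lemma IBc_col {I : T} (ε : I ⟶ 𝟙_ T) (s : ℕ) (W : T) :
    IBc ε s W ≫ IBcol ε s W = IBcol ε (s + 1) W := by
  induction s generalizing W with
  | zero =>
    rw [IBcol_succ, IBcol_zero, IBcol_zero, Category.id_comp, IBc_zero, Category.comp_id]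
  | succ s ih =>
    rw [IBc_succ, IBcol_succ, IBcol_succ ε (s + 1), ← ih (I ⊗ W), Category.assoc]

@[reassoc]
lemma IBmv_nat [SymmetricCategory T] (I X : T) (s : ℕ) {W W' : T} (f : W ⟶ W') :
    IBm I s (X ◁ f) ≫ IBmv I X s W' = IBmv I X s W ≫ (X ◁ IBm I s f) := by
  induction s generalizing W W' with
  | zero =>
    change (X ◁ f) ≫ 𝟙 _ = 𝟙 _ ≫ (X ◁ f)
    rw [Category.comp_id, Category.id_comp]
  | succ s ih =>
    change IBm I s (I ◁ (X ◁ f)) ≫ IBm I s (sw I X W') ≫ IBmv I X s (I ⊗ W') =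
      (IBm I s (sw I X W) ≫ IBmv I X s (I ⊗ W)) ≫ (X ◁ IBm I s (I ◁ f))
    rw [← IBm_comp_assoc, sw_nat_right, IBm_comp_assoc, ih, Category.assoc]

end

variable {T : Type u} [Category.{v} T] [Preadditive T] [HasZeroObject T] [HasShift T ℤ]
  [∀ n : ℤ, (shiftFunctor T n).Additive] [Pretriangulated T] [MonoidalCategory T]
  [SymmetricCategory T] [TensorTriangulated T]

/-- The shift commutes with the iterates of `I ⊗ -`. -/
noncomputable def csI (I : T) : ∀ (s : ℕ) (Z : T), IB I s (Z⟦(1 : ℤ)⟧) ≅ (IB I s Z)⟦(1 : ℤ)⟧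
  | 0, _ => Iso.refl _
  | s + 1, Z => IBmI I s (csh I 1 Z) ≪≫ csI I s (I ⊗ Z)

lemma csI_zero_hom (I : T) (Z : T) : (csI I 0 Z).hom = 𝟙 _ := rfl

lemma csI_succ_hom (I : T) (s : ℕ) (Z : T) :
    (csI I (s + 1) Z).hom = IBm I s (csh I 1 Z).hom ≫ (csI I s (I ⊗ Z)).hom := rfl

@[reassoc]
lemma csI_nat (I : T) (s : ℕ) {Z Z' : T} (f : Z ⟶ Z') :
    IBm I s (f⟦(1 : ℤ)⟧') ≫ (csI I s Z').hom = (csI I s Z).hom ≫ (IBm I s f)⟦(1 : ℤ)⟧' := by
  induction s generalizing Z Z' with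
  | zero => exact (Category.comp_id _).trans (Category.id_comp _).symm
  | succ s ih =>
    rw [csI_succ_hom, csI_succ_hom, Category.assoc, IBm_succ, IBm_succ, ← ih (I ◁ f),
      ← IBm_comp_assoc, csh_nat, IBm_comp_assoc]

@[reassoc]
lemma csh_ep {I : T} (ε : I ⟶ 𝟙_ T) (k : ℤ) (Z : T) :
    (csh I k Z).hom ≫ (ep ε Z)⟦k⟧' = ep ε (Z⟦k⟧) := by
  rw [ep, ep, Functor.map_comp, csh_tlMap_assoc, csh_leftUnitor]

@[reassoc]
lemma IBc_csI {I : T} (ε : I ⟶ 𝟙_ T) (s : ℕ) (Z : T) :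
    IBc ε s (Z⟦(1 : ℤ)⟧) ≫ (csI I s Z).hom =
      (csI I (s + 1) Z).hom ≫ (IBc ε s Z)⟦(1 : ℤ)⟧' := by
  induction s generalizing Z with
  | zero =>
    rw [csI_succ_hom, csI_zero_hom, csI_zero_hom, IBm_zero, Category.comp_id, Category.comp_id,
      IBc_zero, IBc_zero, csh_ep]
  | succ s ih =>
    rw [csI_succ_hom I s, csI_succ_hom I (s + 1), IBc_succ, IBc_succ, Category.assoc, ← ih,
      ← IBc_nat_assoc]

/-- The exchange of two factors and the shift. -/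
@[reassoc]
lemma sw_csh (I X : T) (k : ℤ) (Z : T) :
    sw I X (Z⟦k⟧) ≫ (X ◁ (csh I k Z).hom) ≫ (csh X k (I ⊗ Z)).hom =
      (I ◁ (csh X k Z).hom) ≫ (csh I k (X ⊗ Z)).hom ≫ (sw I X Z)⟦k⟧' := by
  have h1 := csh_associator I X k Z
  have h2 := csh_associator X I k Z
  have h3 := csh_tlMap (β_ I X).hom k Z
  rw [sw, sw, Category.assoc, Category.assoc, ← h2, ← reassoc_of% h3, Functor.map_comp,
    Functor.map_comp, ← cancel_epi (α_ I X (Z⟦k⟧)).hom, Iso.hom_inv_id_assoc, ← reassoc_of% h1,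
    ← Functor.map_comp_assoc, Iso.hom_inv_id, CategoryTheory.Functor.map_id, Category.id_comp]

@[reassoc]
lemma IBmv_csI (I X : T) (s : ℕ) (Z : T) :
    IBmv I X s (Z⟦(1 : ℤ)⟧) ≫ (X ◁ (csI I s Z).hom) ≫ (csh X 1 (IB I s Z)).hom =
      IBm I s (csh X 1 Z).hom ≫ (csI I s (X ⊗ Z)).hom ≫ (IBmv I X s Z)⟦(1 : ℤ)⟧' := by
  induction s generalizing Z with
  | zero =>
    change 𝟙 _ ≫ (X ◁ 𝟙 _) ≫ (csh X 1 Z).hom = (csh X 1 Z).hom ≫ 𝟙 _ ≫ (𝟙 _)⟦(1 : ℤ)⟧'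
    simp
  | succ s ih =>
    rw [csI_succ_hom, csI_succ_hom, MonoidalCategory.whiskerLeft_comp]
    change (IBm I s (sw I X (Z⟦(1 : ℤ)⟧)) ≫ IBmv I X s (I ⊗ Z⟦(1 : ℤ)⟧)) ≫
      ((X ◁ IBm I s (csh I 1 Z).hom) ≫ (X ◁ (csI I s (I ⊗ Z)).hom)) ≫ _ =
      IBm I s (I ◁ (csh X 1 Z).hom) ≫ (IBm I s (csh I 1 (X ⊗ Z)).hom ≫
        (csI I s (I ⊗ (X ⊗ Z))).hom) ≫ (IBm I s (sw I X Z) ≫ IBmv I X s (I ⊗ Z))⟦(1 : ℤ)⟧'
    rw [Functor.map_comp]
    simp only [Category.assoc]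
    rw [← IBmv_nat_assoc, ih, ← csI_nat_assoc, ← IBm_comp_assoc, ← IBm_comp_assoc,
      ← IBm_comp_assoc, ← IBm_comp_assoc, Category.assoc, Category.assoc, sw_csh]

end Vale.Agent.P257.H820
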