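import Vale.Agent.P257.H820.Core

/-!
# P257 (helper820): the Leibniz rule, the main computation
-/

open CategoryTheory MonoidalCategory Limits Pretriangulated MonObj

universe v u

set_option linter.unusedSectionVars false

namespace Vale.Agent.P257.H820

open Vale.Agent.P251.T Vale.Agent.P251.S

variable {T : Type u} [Category.{v} T] [Preadditive T] [HasZeroObject T] [HasShift T ℤ]
  [∀ n : ℤ, (shiftFunctor T n).Additive] [Pretriangulated T] [MonoidalCategory T]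
  [SymmetricCategory T] [TensorTriangulated T]

section

variable {R : T} [MonObj R] (F : UFib R)

@[reassoc (attr := simp)]
lemma UFib.unitMap_bI (W : T) : unitMap R W ≫ F.bI W = 0 :=
  comp_distTriang_mor_zero₂₃ _ (F.dist W)

/-- The first differential `R ⊗ W ⟶ (R ⊗ I ⊗ W)⟦1⟧`. -/
noncomputable def UFib.dI (W : T) : R ⊗ W ⟶ (R ⊗ (F.I ⊗ W))⟦(1 : ℤ)⟧ :=
  F.bI W ≫ (unitMap R (F.I ⊗ W))⟦(1 : ℤ)⟧'

@[reassoc]
lemma UFib.dI_nat {W W' : T} (f : W ⟶ W') :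
    (R ◁ f) ≫ F.dI W' = F.dI W ≫ (R ◁ (F.I ◁ f))⟦(1 : ℤ)⟧' := by
  rw [UFib.dI, UFib.dI, ← Category.assoc, F.bI_nat, Category.assoc, Category.assoc,
    ← Functor.map_comp, unitMap_nat, Functor.map_comp]

/-- A map which dies in `R ⊗ -` is killed by `R ◁ -`. -/
lemma whisker_eq_zero {W W' : T} (χ : W ⟶ W') (h : χ ≫ unitMap R W' = 0) : R ◁ χ = 0 := by
  have h1 : R ◁ χ = (R ◁ χ) ≫ (R ◁ unitMap R W') ≫ mulMap R W' := by
    rw [whiskerLeft_unitMap_mulMap, Category.comp_id]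
  rw [h1, ← MonoidalCategory.whiskerLeft_comp_assoc, h, MonoidalPreadditive.whiskerLeft_zero,
    zero_comp]

lemma whisker_eq_zero' {W W' : T} (χ : W ⟶ W'⟦(1 : ℤ)⟧)
    (h : χ ≫ (unitMap R W')⟦(1 : ℤ)⟧' = 0) : R ◁ χ = 0 := by
  apply whisker_eq_zero
  rw [← unitMap_csh, ← Category.assoc] at h
  rw [← cancel_mono (csh R 1 W').hom, h, zero_comp]

end

namespace NData

variable {R : T} [MonObj R] {F : UFib R} (D : NData F)

/-- The augmentation of `N` becomes the unit after tensoring with `R`. -/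
@[reassoc]
lemma whisker_r (W : T) : R ◁ (D.r ▷ W) = D.ret W ≫ (R ◁ unitMap R W) := by
  have h1 : R ◁ ((D.r ▷ W) ≫ F.bI W) = 0 := whisker_eq_zero' _ (by
    rw [Category.assoc, D.r_bI])
  have h2 : (R ◁ (D.r ▷ W) - D.ret W ≫ (R ◁ unitMap R W)) ≫ (R ◁ F.bI W) = 0 := by
    rw [Preadditive.sub_comp, ← MonoidalCategory.whiskerLeft_comp, h1, Category.assoc,
      ← MonoidalCategory.whiskerLeft_comp, F.unitMap_bI, MonoidalPreadditive.whiskerLeft_zero,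
      comp_zero, sub_zero]
  obtain ⟨g, hg⟩ := Triangle.coyoneda_exact₃ _ (tensorLeftTriangle_distinguished R _ (F.dist W))
    (R ◁ (D.r ▷ W) - D.ret W ≫ (R ◁ unitMap R W)) (by
      have h3 : (R ◁ (D.r ▷ W) - D.ret W ≫ (R ◁ unitMap R W)) ≫ (R ◁ F.bI W) ≫
        (R ◁ (TensorTriangulated.e (F.I ⊗ W)).inv) ≫
        (α_ R (F.I ⊗ W) ((𝟙_ T)⟦(1 : ℤ)⟧)).inv ≫
          (TensorTriangulated.e (R ⊗ (F.I ⊗ W))).hom = 0 := by
        rw [reassoc_of% h2, zero_comp]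
      exact h3)
  change R ⊗ (D.N ⊗ W) ⟶ R ⊗ W at g
  change R ◁ (D.r ▷ W) - D.ret W ≫ (R ◁ unitMap R W) = g ≫ (R ◁ unitMap R W) at hg
  have h4 : g = 0 := by
    have h5 := congrArg (fun f => f ≫ mulMap R W) hg
    simp only [Preadditive.sub_comp, Category.assoc, whiskerLeft_unitMap_mulMap,
      Category.comp_id] at h5
    rw [← h5]
    exact sub_self _
  rw [h4, zero_comp, sub_eq_zero] at hg
  exact hg

/-- The retraction `R ⊗ X ⊗ N ⊗ W ⟶ R ⊗ X ⊗ W`. -/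
def retG (X W : T) : R ⊗ (X ⊗ (D.N ⊗ W)) ⟶ R ⊗ (X ⊗ W) := (R ◁ sw X D.N W) ≫ D.ret (X ⊗ W)

@[reassoc]
lemma ret_nat {W W' : T} (f : W ⟶ W') : (R ◁ (D.N ◁ f)) ≫ D.ret W' = D.ret W ≫ (R ◁ f) := by
  rw [ret, ret, ← MonoidalCategory.whiskerLeft_comp_assoc, whisker_exchange,
    MonoidalCategory.whiskerLeft_comp_assoc, mulMap_nat, Category.assoc]

@[reassoc]
lemma whisker_whisker_r (X W : T) :
    R ◁ (X ◁ (D.r ▷ W)) = D.retG X W ≫ (R ◁ (X ◁ unitMap R W)) := by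
  have h1 : X ◁ (D.r ▷ W) = sw X D.N W ≫ (D.r ▷ (X ⊗ W)) ≫ sw R X W := by
    rw [sw_nat_left, sw_sw_assoc]
  have h2 : X ◁ unitMap R W = unitMap R (X ⊗ W) ≫ sw R X W := (uN_sw X _ W).symm
  rw [h1, h2, MonoidalCategory.whiskerLeft_comp, MonoidalCategory.whiskerLeft_comp, whisker_r,
    MonoidalCategory.whiskerLeft_comp, retG]
  simp only [Category.assoc]

/-- The retraction is a map of complexes. -/
@[reassoc]
lemma dI_retG (W : T) : F.dI (D.N ⊗ W) ≫ (D.retG F.I W)⟦(1 : ℤ)⟧' = D.ret W ≫ F.dI W := by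
  have h1 : (R ◁ (F.I ◁ unitMap R W)) ≫ (R ◁ sw F.I R W) ≫ mulMap R (F.I ⊗ W) = 𝟙 _ := by
    have h2 : (F.I ◁ unitMap R W) ≫ sw F.I R W = unitMap R (F.I ⊗ W) := whisker_uN_sw F.I _ W
    rw [← MonoidalCategory.whiskerLeft_comp_assoc, h2, whiskerLeft_unitMap_mulMap]
  have h3 : (F.dI (D.N ⊗ W) ≫ (D.retG F.I W)⟦(1 : ℤ)⟧') ≫
      (R ◁ (F.I ◁ unitMap R W))⟦(1 : ℤ)⟧' = (D.ret W ≫ F.dI W) ≫
      (R ◁ (F.I ◁ unitMap R W))⟦(1 : ℤ)⟧' := by
    rw [Category.assoc, Category.assoc, ← Functor.map_comp, ← whisker_whisker_r, ← F.dI_nat,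
      ← F.dI_nat, ← whisker_r_assoc]
  have h4 := congrArg (fun f => f ≫ ((R ◁ sw F.I R W) ≫ mulMap R (F.I ⊗ W))⟦(1 : ℤ)⟧') h3
  simp only [Category.assoc, ← Functor.map_comp, h1] at h4
  simpa using h4

@[reassoc]
lemma unitMap_retG (X W : T) :
    unitMap R (X ⊗ (D.N ⊗ W)) ≫ D.retG X W = sw X D.N W ≫ (D.r ▷ (X ⊗ W)) := by
  rw [retG, ret, ← unitMap_nat_assoc, ← unitMap_nat_assoc, unitMap_mulMap, Category.comp_id]

end NData

end Vale.Agent.P257.H820
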