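import Vale.Agent.P257.H820.Phi
import Vale.Agent.P257.H545.CupRing1

/-!
# P257 (helper820): products of cochains in the `E₁`-term of the tower
-/

open CategoryTheory MonoidalCategory Limits Pretriangulated MonObj

universe v u

set_option linter.unusedSectionVars false

namespace Vale.Agent.P257.H820

open Vale.Agent.P251.T Vale.Agent.P251.S

section Mon

variable {T : Type u} [Category.{v} T] [MonoidalCategory T] [SymmetricCategory T]
  {R : T} [MonObj R]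

@[reassoc]
lemma whisker_unitMap_sw (X W : T) :
    (X ◁ unitMap R W) ≫ sw X R W = unitMap R (X ⊗ W) := whisker_uN_sw X _ W

@[reassoc]
lemma unitMap_sw (X W : T) : unitMap R (X ⊗ W) ≫ sw R X W = X ◁ unitMap R W := uN_sw X _ W

/-- Moving out a factor preserves primitive maps. -/
lemma prim_sw {X A : T} (J : T) (f : X ⟶ R ⊗ A)
    (hf : f ≫ unitMap R (R ⊗ A) = f ≫ (R ◁ unitMap R A)) :
    ((J ◁ f) ≫ sw J R A) ≫ unitMap R (R ⊗ (J ⊗ A)) =
      ((J ◁ f) ≫ sw J R A) ≫ (R ◁ unitMap R (J ⊗ A)) := by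
  calc ((J ◁ f) ≫ sw J R A) ≫ unitMap R (R ⊗ (J ⊗ A))
      = (J ◁ (f ≫ unitMap R (R ⊗ A))) ≫ sw J R (R ⊗ A) ≫ (R ◁ sw J R A) := by
        rw [Category.assoc, unitMap_nat, MonoidalCategory.whiskerLeft_comp, Category.assoc,
          ← whisker_unitMap_sw J (R ⊗ A), Category.assoc]
    _ = _ := by
        rw [hf, MonoidalCategory.whiskerLeft_comp, Category.assoc, sw_nat_right_assoc,
          ← MonoidalCategory.whiskerLeft_comp, whisker_unitMap_sw, Category.assoc]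

/-- The key identity for primitive maps. -/
lemma prim_key {X A J : T} (ρ : R ⟶ J) (f : X ⟶ R ⊗ A)
    (hf : f ≫ unitMap R (R ⊗ A) = f ≫ (R ◁ unitMap R A)) :
    R ◁ ((R ◁ f) ≫ mulMap R A ≫ (ρ ▷ A)) =
      (R ◁ ((ρ ▷ X) ≫ (J ◁ f) ≫ sw J R A)) ≫ mulMap R (J ⊗ A) := by
  have h1 : (R ◁ (R ◁ unitMap R (R ⊗ A))) ≫ (R ◁ sw R R (R ⊗ A)) ≫ mulMap R (R ⊗ (R ⊗ A)) ≫
      (R ◁ mulMap R A) = R ◁ mulMap R A := by
    rw [← MonoidalCategory.whiskerLeft_comp_assoc, whisker_unitMap_sw,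
      whiskerLeft_unitMap_mulMap_assoc]
  have h2 : (R ◁ (R ◁ (R ◁ unitMap R A))) ≫ (R ◁ sw R R (R ⊗ A)) ≫
      mulMap R (R ⊗ (R ⊗ A)) ≫ (R ◁ mulMap R A) = (R ◁ sw R R A) ≫ mulMap R (R ⊗ A) := by
    rw [← MonoidalCategory.whiskerLeft_comp_assoc, sw_nat_right,
      MonoidalCategory.whiskerLeft_comp_assoc, mulMap_nat_assoc,
      ← MonoidalCategory.whiskerLeft_comp R (R ◁ unitMap R A), whiskerLeft_unitMap_mulMap,
      MonoidalCategory.whiskerLeft_id, Category.comp_id]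
  have h3 : (R ◁ (R ◁ f)) ≫ (R ◁ mulMap R A) =
      (R ◁ (R ◁ f)) ≫ (R ◁ sw R R A) ≫ mulMap R (R ⊗ A) := by
    rw [← h1, ← h2, ← MonoidalCategory.whiskerLeft_comp_assoc,
      ← MonoidalCategory.whiskerLeft_comp_assoc R (R ◁ f) (R ◁ (R ◁ unitMap R A)),
      ← MonoidalCategory.whiskerLeft_comp, hf, MonoidalCategory.whiskerLeft_comp]
  calc R ◁ ((R ◁ f) ≫ mulMap R A ≫ (ρ ▷ A))
      = ((R ◁ (R ◁ f)) ≫ (R ◁ mulMap R A)) ≫ (R ◁ (ρ ▷ A)) := by
        simp only [MonoidalCategory.whiskerLeft_comp, Category.assoc]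
    _ = (R ◁ ((R ◁ f) ≫ sw R R A ≫ (R ◁ (ρ ▷ A)))) ≫ mulMap R (J ⊗ A) := by
        rw [h3]
        simp only [MonoidalCategory.whiskerLeft_comp, Category.assoc]
        rw [mulMap_nat]
    _ = _ := by
        rw [← sw_nat_left, whisker_exchange_assoc]

end Mon

variable {T : Type u} [Category.{v} T] [Preadditive T] [HasZeroObject T] [HasShift T ℤ]
  [∀ n : ℤ, (shiftFunctor T n).Additive] [Pretriangulated T] [MonoidalCategory T]
  [SymmetricCategory T] [TensorTriangulated T]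

variable {R : T} [MonObj R] (U : UnitCof R)

/-- The product with a primitive map on the right, in the `E₁`-term. -/
theorem prim_q {X A : T} (f : X ⟶ R ⊗ A)
    (hf : f ≫ unitMap R (R ⊗ A) = f ≫ (R ◁ unitMap R A)) (r : ℕ) :
    U.cobar.Qm r ((R ◁ f) ≫ mulMap R A) ≫ U.cobar.q r A =
      U.cobar.q r X ≫ (R ◁ (U.cobar.Bm r f ≫ mvB U R r A)) ≫ mulMap R (U.cobar.B r A) := by
  induction r generalizing X A with
  | zero =>
    rw [CobarData.q_zero, CobarData.q_zero, mvB_zero, CobarData.Bm_zero]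
    exact (Category.comp_id _).trans (by rw [Category.comp_id]; exact (Category.id_comp _).symm)
  | succ r ih =>
    have h1 : (R ◁ ((R ◁ f) ≫ mulMap R A)) ≫ (R ◁ (U.ρ ▷ A)) =
        (R ◁ (U.ρ ▷ X)) ≫ (R ◁ ((U.J ◁ f) ≫ sw U.J R A)) ≫ mulMap R (U.J ⊗ A) := by
      rw [← MonoidalCategory.whiskerLeft_comp, Category.assoc, prim_key U.ρ f hf,
        MonoidalCategory.whiskerLeft_comp, Category.assoc]
    have h2 : U.cobar.Qm (r + 1) ((R ◁ f) ≫ mulMap R A) ≫ U.cobar.Qm (r + 1) (U.ρ ▷ A) =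
        U.cobar.Qm (r + 1) (U.ρ ▷ X) ≫
          U.cobar.Qm r ((R ◁ ((U.J ◁ f) ≫ sw U.J R A)) ≫ mulMap R (U.J ⊗ A)) := by
      rw [CobarData.Qm_succ, CobarData.Qm_succ, CobarData.Qm_succ, ← CobarData.Qm_comp,
        ← CobarData.Qm_comp]
      exact congrArg _ h1
    have h3 : U.cobar.Bm r ((U.J ◁ f) ≫ sw U.J R A) ≫ mvB U R r (U.J ⊗ A) =
        U.cobar.Bm (r + 1) f ≫ mvB U R (r + 1) A := by
      rw [CobarData.Bm_comp, mvB_succ, CobarData.Bm_succ, Category.assoc]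
    rw [CobarData.q_succ, CobarData.q_succ]
    refine ((reassoc_of% h2) (U.cobar.q r (U.J ⊗ A))).trans ?_
    rw [ih _ (prim_sw U.J f hf), h3, Category.assoc]

/-- The product of an element of the tower and a primitive map. -/
theorem push_eq {P X A : T} (f : X ⟶ R ⊗ A)
    (hf : f ≫ unitMap R (R ⊗ A) = f ≫ (R ◁ unitMap R A)) (r : ℕ) (c : P ⟶ U.cobar.B r X)
    (τ : P ⟶ U.cobar.Q (r + 1) X) (hc : c ≫ unitMap R _ = τ ≫ U.cobar.q r X) :
    c ≫ U.cobar.Bm r f ≫ mvB U R r A =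
      τ ≫ U.cobar.Qm r ((R ◁ f) ≫ mulMap R A) ≫ U.cobar.q r A := by
  rw [prim_q U f hf, ← reassoc_of% hc, ← unitMap_nat_assoc, unitMap_mulMap, Category.comp_id]

lemma om_zero (Y : T) : om U 0 Y = mulMap R Y := rfl

lemma om_succ (s : ℕ) (Y : T) : om U (s + 1) Y = om U s (R ⊗ Y) := rfl

@[reassoc]
lemma om_nat (s : ℕ) {Y Y' : T} (f : Y ⟶ Y') :
    (R ◁ U.cobar.Qm (s + 1) f) ≫ om U s Y' = om U s Y ≫ U.cobar.Qm (s + 1) f := by
  induction s generalizing Y Y' with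
  | zero => exact mulMap_nat f
  | succ s ih => exact ih (R ◁ f)

@[reassoc]
lemma om_q (s : ℕ) (Y : T) :
    (R ◁ U.cobar.q s Y) ≫ mulMap R (U.cobar.B s Y) = om U s Y ≫ U.cobar.q s Y := by
  induction s generalizing Y with
  | zero =>
    rw [CobarData.q_zero, om_zero]
    refine Eq.trans ?_ (Category.comp_id _).symm
    exact (congrArg (fun x => x ≫ mulMap R Y) (MonoidalCategory.whiskerLeft_id _ _)).trans
      (Category.id_comp _)
  | succ s ih =>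
    have h1 := om_nat U s (U.ρ ▷ Y)
    rw [CobarData.q_succ, MonoidalCategory.whiskerLeft_comp, Category.assoc, om_succ]
    refine (congrArg (fun x => (R ◁ U.cobar.Qm (s + 1) (U.ρ ▷ Y)) ≫ x) (ih (U.J ⊗ Y))).trans ?_
    exact (reassoc_of% h1) _

/-- The product on the left with a map to `R`. -/
theorem oc_eq {P Z A : T} {n k m : ℤ} (h : n + k = m) (x : P⟦n⟧ ⟶ R ⊗ Z) (s : ℕ)
    (c : Z⟦k⟧ ⟶ U.cobar.B s A) (γ : Z⟦k⟧ ⟶ U.cobar.Q (s + 1) A)
    (hc : c ≫ unitMap R _ = γ ≫ U.cobar.q s A) :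
    oc h x c = (oc h x γ ≫ om U s A) ≫ U.cobar.q s A := by
  have h1 : oc h x c = oc h x (c ≫ unitMap R _) ≫ mulMap R _ := by
    rw [oc_comp, Category.assoc, whiskerLeft_unitMap_mulMap, Category.comp_id]
  rw [h1, hc, oc_comp, Category.assoc, om_q, Category.assoc]

end Vale.Agent.P257.H820
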