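import Vale.Agent.P257.H820.Shift1
import Vale.Agent.P257.H820.Push

/-!
# P257 (helper820): the Leibniz rule in terms of cochains
-/

open CategoryTheory MonoidalCategory Limits Pretriangulated MonObj

universe v u

set_option linter.unusedSectionVars false

namespace Vale.Agent.P257.H820

open Vale.Agent.P251.T Vale.Agent.P251.S

section Mon

variable {T : Type u} [Category.{v} T] [MonoidalCategory T] [SymmetricCategory T]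
  {R : T} [MonObj R]

lemma prim_post {X A A' : T} (g : X ⟶ R ⊗ A)
    (hg : g ≫ unitMap R (R ⊗ A) = g ≫ (R ◁ unitMap R A)) (a : A ⟶ A') :
    (g ≫ (R ◁ a)) ≫ unitMap R (R ⊗ A') = (g ≫ (R ◁ a)) ≫ (R ◁ unitMap R A') := by
  rw [Category.assoc, unitMap_nat, reassoc_of% hg, Category.assoc,
    ← MonoidalCategory.whiskerLeft_comp, ← MonoidalCategory.whiskerLeft_comp, unitMap_nat]

/-- The extension `V ⊗ X ⟶ R ⊗ A` of a map `f : X ⟶ R ⊗ A`. -/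
def fV {V A X : T} (a : V ⊗ A ⟶ A) (f : X ⟶ R ⊗ A) : V ⊗ X ⟶ R ⊗ A :=
  (V ◁ f) ≫ sw V R A ≫ (R ◁ a)

lemma prim_fV {V A X : T} (a : V ⊗ A ⟶ A) (f : X ⟶ R ⊗ A)
    (hf : f ≫ unitMap R (R ⊗ A) = f ≫ (R ◁ unitMap R A)) :
    fV a f ≫ unitMap R (R ⊗ A) = fV a f ≫ (R ◁ unitMap R A) := by
  have h : fV a f = ((V ◁ f) ≫ sw V R A) ≫ (R ◁ a) := (Category.assoc _ _ _).symm
  rw [h]
  exact prim_post _ (prim_sw V f hf) a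

lemma uN_fV {V A X : T} (i : 𝟙_ T ⟶ V) (a : V ⊗ A ⟶ A) (ha : uN i A ≫ a = 𝟙 A)
    (f : X ⟶ R ⊗ A) : uN i X ≫ fV a f = f := by
  rw [fV, ← uN_nat_assoc, uN_sw_assoc, ← MonoidalCategory.whiskerLeft_comp, ha,
    MonoidalCategory.whiskerLeft_id, Category.comp_id]

/-- The action of `V` on `J ⊗ V`. -/
def actJ (J : T) {V : T} (m : V ⊗ V ⟶ V) : V ⊗ (J ⊗ V) ⟶ J ⊗ V := sw V J V ≫ (J ◁ m)

lemma uN_actJ (J : T) {V : T} (i : 𝟙_ T ⟶ V) (m : V ⊗ V ⟶ V) (hm : (i ▷ V) ≫ m = (λ_ V).hom) :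
    uN i (J ⊗ V) ≫ actJ J m = 𝟙 (J ⊗ V) := by
  rw [actJ, uN_sw_assoc, ← MonoidalCategory.whiskerLeft_comp, uN, Category.assoc, hm,
    Iso.inv_hom_id, MonoidalCategory.whiskerLeft_id]

end Mon

variable {T : Type u} [Category.{v} T] [Preadditive T] [HasZeroObject T] [HasShift T ℤ]
  [∀ n : ℤ, (shiftFunctor T n).Additive] [Pretriangulated T] [MonoidalCategory T]
  [SymmetricCategory T] [TensorTriangulated T]

variable {R : T} [MonObj R] (U : UnitCof R)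

lemma q_one (V : T) : U.cobar.q 1 V = R ◁ (U.ρ ▷ V) :=
  (Category.comp_id _)

/-- Cocycles of degree one give primitive maps. -/
lemma prim_of_cocycle {X V : T} (ζ : X ⟶ U.cobar.Q 2 V) (h : ζ ≫ U.cobar.d 2 V = 0) :
    (ζ ≫ U.cobar.q 1 V) ≫ unitMap R (R ⊗ (U.J ⊗ V)) =
      (ζ ≫ U.cobar.q 1 V) ≫ (R ◁ unitMap R (U.J ⊗ V)) := by
  have h1 : ζ ≫ U.cobar.q 1 V ≫ U.cobar.d 1 (U.J ⊗ V) = 0 := by
    have h2 := U.cobar.d_Qρ 1 V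
    have h3 : U.cobar.q 1 V ≫ U.cobar.d 1 (U.J ⊗ V) = U.cobar.d 2 V ≫
        U.cobar.Qm 2 (U.ρ ▷ V) := by
      rw [q_one]
      exact h2.symm
    rw [h3, reassoc_of% h, zero_comp]
  have h4 : U.cobar.d 1 (U.J ⊗ V) =
      unitMap R (R ⊗ (U.J ⊗ V)) - (R ◁ unitMap R (U.J ⊗ V)) := by
    have h5 : U.cobar.d 1 (U.J ⊗ V) = unitMap R (R ⊗ (U.J ⊗ V)) +
      (-1 : ℤ) ^ (0 + 1) • (R ◁ unitMap R (U.J ⊗ V)) := rfl
    rw [h5, sub_eq_add_neg]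
    congr 1
    simp
  rw [h4, ← Category.assoc, Preadditive.comp_sub] at h1
  exact sub_eq_zero.1 h1

/-- Products with a cochain of degree `0` on the left. -/
lemma oc_mul_q {P Z Y V : T} {n k m : ℤ} (h : n + k = m) (v : P⟦n⟧ ⟶ R ⊗ Z) (s : ℕ)
    (g : Z⟦k⟧ ⟶ U.cobar.Q (s + 1) Y) (i : Y ⟶ V) :
    oc h v (g ≫ U.cobar.Qm (s + 1) i ≫ U.cobar.q s V) ≫ mulMap R (U.cobar.B s V) =
      (oc h v g ≫ om U s Y) ≫ U.cobar.Qm (s + 1) i ≫ U.cobar.q s V := by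
  rw [oc_comp, Category.assoc, MonoidalCategory.whiskerLeft_comp, Category.assoc, om_q,
    om_nat_assoc, Category.assoc]

lemma oc_mul_q' {P Z Y V : T} {n k m : ℤ} (h : n + k = m) (v : P⟦n⟧ ⟶ R ⊗ Z) (s : ℕ)
    (c : Z⟦k⟧ ⟶ U.cobar.B s V) (g : Z⟦k⟧ ⟶ U.cobar.Q (s + 1) Y) (i : Y ⟶ V)
    (hc : c ≫ unitMap R (U.cobar.B s V) = g ≫ U.cobar.Qm (s + 1) i ≫ U.cobar.q s V) :
    oc h v c = (oc h v g ≫ om U s Y) ≫ U.cobar.Qm (s + 1) i ≫ U.cobar.q s V := by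
  rw [← oc_mul_q, ← hc, oc_comp, Category.assoc, whiskerLeft_unitMap_mulMap, Category.comp_id]

/-- The product with a cocycle of degree `1` on the right. -/
lemma push_cup {P X V : T} (i : 𝟙_ T ⟶ V) (a : V ⊗ (U.J ⊗ V) ⟶ U.J ⊗ V)
    (ha : uN i (U.J ⊗ V) ≫ a = 𝟙 _) (ζ0 : X ⟶ U.cobar.Q 2 (𝟙_ T))
    (hζ : (ζ0 ≫ U.cobar.Qm 2 i) ≫ U.cobar.d 2 V = 0) (r : ℕ)
    (cx : P ⟶ U.cobar.B r (V ⊗ X)) (τ : P ⟶ U.cobar.Q (r + 1) X)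
    (hc : cx ≫ unitMap R _ = (τ ≫ U.cobar.Qm (r + 1) (uN i X)) ≫ U.cobar.q r (V ⊗ X)) :
    cx ≫ U.cobar.Bm r (fV a (ζ0 ≫ U.cobar.Qm 2 i ≫ U.cobar.q 1 V)) ≫ mvB U R r (U.J ⊗ V) =
      (τ ≫ cup1 U ζ0 r) ≫ U.cobar.Qm (r + 2) i ≫ U.cobar.q (r + 1) V := by
  have hp : (ζ0 ≫ U.cobar.Qm 2 i ≫ U.cobar.q 1 V) ≫ unitMap R (R ⊗ (U.J ⊗ V)) =
      (ζ0 ≫ U.cobar.Qm 2 i ≫ U.cobar.q 1 V) ≫ (R ◁ unitMap R (U.J ⊗ V)) := by
    have e : ζ0 ≫ U.cobar.Qm 2 i ≫ U.cobar.q 1 V =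
        (ζ0 ≫ U.cobar.Qm 2 i) ≫ U.cobar.q 1 V := (Category.assoc _ _ _).symm
    rw [e]
    exact prim_of_cocycle U (ζ0 ≫ U.cobar.Qm 2 i) hζ
  rw [push_eq U _ (prim_fV a _ hp) r cx _ hc]
  have h1 : U.cobar.Qm (r + 1) (uN i X) ≫
      U.cobar.Qm r ((R ◁ fV a (ζ0 ≫ U.cobar.Qm 2 i ≫ U.cobar.q 1 V)) ≫
        mulMap R (U.J ⊗ V)) =
      cup1 U ζ0 r ≫ U.cobar.Qm (r + 2) i ≫ U.cobar.Qm (r + 1) (U.ρ ▷ V) := by
    rw [CobarData.Qm_succ, ← CobarData.Qm_comp]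
    have h2 : (R ◁ uN i X) ≫ (R ◁ fV a (ζ0 ≫ U.cobar.Qm 2 i ≫ U.cobar.q 1 V)) ≫
        mulMap R (U.J ⊗ V) =
        ((R ◁ ζ0) ≫ mulMap R (R ⊗ 𝟙_ T)) ≫ U.cobar.Qm 2 i ≫ (R ◁ (U.ρ ▷ V)) := by
      rw [← MonoidalCategory.whiskerLeft_comp_assoc, uN_fV i a ha, q_one,
        MonoidalCategory.whiskerLeft_comp, MonoidalCategory.whiskerLeft_comp, Category.assoc,
        Category.assoc, Category.assoc, mulMap_nat]
      congr 1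
      exact mulMap_nat_assoc (R := R) (R ◁ i) (R ◁ (U.ρ ▷ V))
    refine (congrArg (U.cobar.Qm r) h2).trans ?_
    refine (U.cobar.Qm_comp r _ _).trans ?_
    exact congrArg (fun z => cup1 U ζ0 r ≫ z) (U.cobar.Qm_comp r _ _)
  rw [Category.assoc, reassoc_of% h1, CobarData.q_succ, Category.assoc]

end Vale.Agent.P257.H820
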