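import Vale.Agent.P257.H820.Leib2
import Vale.Agent.P257.H712.EvenShift

/-!
# P257 (helper820): the Leibniz rule in the couple of `V`, in terms of cochains
-/

open CategoryTheory MonoidalCategory Limits Pretriangulated MonObj

universe v u

set_option linter.unusedSectionVars false

namespace Vale.Agent.P257.H820

open Vale.Agent.P251.T Vale.Agent.P251.S

variable {T : Type u} [Category.{v} T] [Preadditive T] [HasZeroObject T] [HasShift T ℤ]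
  [∀ n : ℤ, (shiftFunctor T n).Additive] [Pretriangulated T] [MonoidalCategory T]
  [SymmetricCategory T] [TensorTriangulated T]

variable {R : T} [MonObj R]

/-- The class of `c` in the couple of `J ⊗ V`. -/
lemma eE_j' (U : UnitCof R) (V : T) {s : ℕ} {n t : ℤ} (h : n + (s : ℤ) = t)
    (y : (CA U V).D s n) :
    (U.tow V).eE (𝟙_ T) h ((CA U V).j s n y) =
      (U.tow V).eD (𝟙_ T) h y ≫ unitMap R (U.cobar.B s V) := (U.tow V).eE_j (𝟙_ T) h y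

/-- **The Leibniz rule in the couple of `V`.** -/
theorem leibnizQ [IsTriangulated T] (U : UnitCof R)
    (hpack : ∀ (F : UFib R) (q : ℕ), 1 ≤ q → Nonempty (NPack F q)) {r : ℕ} (hr : 2 ≤ r)
    {V : T} (i : 𝟙_ T ⟶ V) (m : V ⊗ V ⟶ V) (hm : (i ▷ V) ≫ m = (λ_ V).hom)
    {n M N : ℤ} (n' : ℕ) (hM : M = 2 * (n' : ℤ)) (hN : n + M = N)
    (v0 : (𝟙_ T)⟦n⟧ ⟶ U.cobar.Q 1 (𝟙_ T)) (ζ0 : (𝟙_ T)⟦M⟧ ⟶ U.cobar.Q 2 (𝟙_ T))
    (hζ : (ζ0 ≫ U.cobar.Qm 2 i) ≫ U.cobar.d 2 V = 0)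
    (hv : ∃ g : (𝟙_ T)⟦N⟧ ⟶ U.cobar.Q 1 V,
      (oc hN v0 ζ0 ≫ om U 1 (𝟙_ T)) ≫ U.cobar.Qm 2 i = g ≫ U.cobar.d 1 V)
    {m₁ : ℤ} (hm₁ : n = m₁ + 1) (y : (CA U V).D (r + 1) m₁)
    (hy : (CA U V).proj m₁ (Nat.le_add_left 1 r) y = (CA U V).k 0 n m₁ hm₁
      (((U.tow V).eE (𝟙_ T) (show n + ((0 : ℕ) : ℤ) = n by simp)).symm (v0 ≫ (R ◁ i))))
    {t₁ : ℤ} (ht₁ : m₁ + ((r + 1 : ℕ) : ℤ) = t₁) (θ : (𝟙_ T)⟦t₁⟧ ⟶ U.cobar.Q (r + 2) (𝟙_ T))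
    (hθ : (U.tow V).eE (𝟙_ T) ht₁ ((CA U V).j (r + 1) m₁ y) =
      θ ≫ U.cobar.Qm (r + 2) i ≫ U.cobar.q (r + 1) V)
    {e₁ e₂ : ℤ} (he₁ : e₁ + ((1 : ℕ) : ℤ) = M) (he₂ : e₁ = e₂ + 1)
    (c : (CA U V).D (r + 2) e₂)
    (hc : (CA U V).proj e₂ (Nat.le_add_left 2 r) c = (CA U V).k 1 e₁ e₂ he₂
      (((U.tow V).eE (𝟙_ T) he₁).symm (ζ0 ≫ U.cobar.Qm 2 i ≫ U.cobar.q 1 V)))
    {t₂ : ℤ} (ht₂ : e₂ + ((r + 2 : ℕ) : ℤ) = t₂) (γ : (𝟙_ T)⟦t₂⟧ ⟶ U.cobar.Q (r + 3) (𝟙_ T))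
    (hγ : (U.tow V).eE (𝟙_ T) ht₂ ((CA U V).j (r + 2) e₂ c) =
      γ ≫ U.cobar.Qm (r + 3) i ≫ U.cobar.q (r + 2) V)
    {m₃ t₃ : ℤ} (hm₃ : m₃ = e₂ + n) (ht₃ : m₃ + ((r + 2 : ℕ) : ℤ) = t₃)
    (h₁₃ : t₁ + M = t₃) (h₂₃ : n + t₂ = t₃) :
    ∃ e : (CA U V).D (r + 2) m₃, (CA U V).proj m₃ (Nat.le_add_left 2 r) e = 0 ∧
      (U.tow V).eE (𝟙_ T) ht₃ ((CA U V).j (r + 2) m₃ e) =
        (sh t₁ M t₃ h₁₃ θ ≫ U.κQ M (r + 2) (𝟙_ T) ≫ cup1 U ζ0 (r + 1) +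
          sh n t₂ t₃ h₂₃ v0 ≫ (csh R t₂ (𝟙_ T)).inv ≫ (R ◁ γ) ≫ om U (r + 2) (𝟙_ T)) ≫
          U.cobar.Qm (r + 3) i ≫ U.cobar.q (r + 2) V := by
  subst ht₁
  have hmf : M = e₁ + 1 := by rw [← he₁]; push_cast; ring
  obtain ⟨me, hme⟩ : ∃ me, me = m₃ + 1 := ⟨_, rfl⟩
  have hNe : N = me + 1 := by rw [hme, hm₃, ← hN, hmf, he₂]; ring
  -- the class of `ξ`
  let A : T := U.J ⊗ V
  let f : (𝟙_ T)⟦M⟧ ⟶ R ⊗ A := ζ0 ≫ U.cobar.Qm 2 i ≫ U.cobar.q 1 V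
  let cf : (𝟙_ T)⟦e₁ + ((r + 1 : ℕ) : ℤ)⟧ ⟶ U.cobar.B (r + 1) A := σD U V (r + 1) e₂ e₁ he₂ c
  have hf : (CA U A).proj e₁ (Nat.le_add_left 1 r) cf = (CA U A).k 0 M e₁ hmf
      (((U.tow A).eE (𝟙_ T) (show M + ((0 : ℕ) : ℤ) = M by simp)).symm f) := by
    refine (σD_proj U V e₂ e₁ he₂ (Nat.le_add_left 1 r) (Nat.le_add_left 2 r) c).trans ?_
    rw [hc]
    exact σD_k U V 0 he₂ he₂ hmf he₁ (by simp) _
  -- the class of `v`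
  have hsh : m₁ + ((r + 1 : ℕ) : ℤ) + M = me + ((r + 1 : ℕ) : ℤ) := by
    rw [hme, hm₃, hmf, he₂, hm₁]; ring
  have hθ' : y ≫ unitMap R (U.cobar.B (r + 1) V) =
      θ ≫ U.cobar.Qm (r + 2) i ≫ U.cobar.q (r + 1) V := hθ
  obtain ⟨cx, hcx1, hcx2⟩ := exists_evenShift U i n' hM hN hm₁ hNe v0 y hy θ hθ' hsh
  -- the Leibniz rule
  have hoc : n + (e₁ + ((r + 1 : ℕ) : ℤ)) = me + ((r + 1 : ℕ) : ℤ) := by
    rw [hme, hm₃, he₂]; ring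
  obtain ⟨e, he1, he2⟩ := leibnizJ U hpack hr i (actJ U.J m) (uN_actJ U.J i m hm) hN hmf hNe
    f cf hf v0 cx hcx1 hoc
  -- the product with `v` is zero
  have hz : (CA U A).k 0 N me hNe
      (((U.tow A).eE (𝟙_ T) (show N + ((0 : ℕ) : ℤ) = N by simp)).symm
        (oc hN v0 f ≫ mulMap R A)) = 0 := by
    obtain ⟨g, hg⟩ := hv
    have h1 : oc hN v0 f ≫ mulMap R A = (g ≫ (U.ρ ▷ V)) ≫ unitMap R A := by
      have h2 : oc hN v0 f ≫ mulMap R A =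
          (oc hN v0 ζ0 ≫ om U 1 (𝟙_ T)) ≫ U.cobar.Qm 2 i ≫ U.cobar.q 1 V :=
        oc_mul_q U hN v0 1 ζ0 i
      have h3 : U.cobar.d 1 V ≫ U.cobar.q 1 V = (U.ρ ▷ V) ≫ unitMap R A :=
        (U.cobar.d_q 0 V).trans (Category.id_comp _)
      rw [h2, ← Category.assoc, hg, Category.assoc, h3, Category.assoc]
    refine (congrArg (fun z : (𝟙_ T)⟦N⟧ ⟶ R ⊗ A => (CA U A).k 0 N me hNe
      (((U.tow A).eE (𝟙_ T) (show N + ((0 : ℕ) : ℤ) = N by simp)).symm z)) h1).trans ?_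
    have h4 : ((U.tow A).eE (𝟙_ T) (show N + ((0 : ℕ) : ℤ) = N by simp)).symm
        ((g ≫ (U.ρ ▷ V)) ≫ unitMap R A) =
        (CA U A).j 0 N (((U.tow A).eD (𝟙_ T) (show N + ((0 : ℕ) : ℤ) = N by simp)).symm
          (g ≫ (U.ρ ▷ V))) := by
      rw [AddEquiv.symm_apply_eq]
      refine Eq.trans ?_ ((U.tow A).eE_j (𝟙_ T) (show N + ((0 : ℕ) : ℤ) = N by simp) _).symm
      exact congrArg (fun z => z ≫ unitMap R A)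
        (AddEquiv.apply_symm_apply ((U.tow A).eD (𝟙_ T) (show N + ((0 : ℕ) : ℤ) = N by simp))
          (g ≫ (U.ρ ▷ V))).symm
    refine (congrArg ((CA U A).k 0 N me hNe) h4).trans ?_
    exact (CA U A).k_j _ _ _ _ _
  have ht₂' : e₁ + ((r + 1 : ℕ) : ℤ) = t₂ := by rw [← ht₂, he₂]; push_cast; ring
  have ht₃' : me + ((r + 1 : ℕ) : ℤ) = t₃ := by rw [← ht₃, hme]; push_cast; ring
  subst ht₂'
  subst ht₃'
  obtain ⟨e', he'⟩ := (σD U V (r + 1) m₃ me hme).surjective e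
  refine ⟨e', ?_, ?_⟩
  · apply (σD U V 1 m₃ me hme).injective
    have h5 := σD_proj U V m₃ me hme (Nat.le_add_left 1 r) (Nat.le_add_left 2 r) e'
    refine h5.symm.trans (Eq.trans ?_ (map_zero _).symm)
    refine (congrArg ((CA U A).proj me (Nat.le_add_left 1 r)) he').trans ?_
    exact he1.trans hz
  · have h6 : (U.tow V).eD (𝟙_ T) ht₃ e' = e := by
      have h7 := eD_σD U V hme ht₃ rfl e'
      exact h7.symm.trans he'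
    refine (eE_j' U V ht₃ _).trans ?_
    refine (congrArg (fun z => z ≫ unitMap R (U.cobar.B (r + 2) V)) h6).trans ?_
    refine he2.trans ?_
    have h8 : oc hoc v0 cf = (oc hoc v0 γ ≫ om U (r + 2) (𝟙_ T)) ≫
        U.cobar.Qm (r + 3) i ≫ U.cobar.q (r + 2) V := by
      refine oc_mul_q' U hoc v0 (r + 2) cf γ i ?_
      refine Eq.trans ?_ hγ
      exact (eE_j' U V ht₂ c).symm
    have h9 := push_cup U i (actJ U.J m) (uN_actJ U.J i m hm) ζ0 hζ (r + 1) cx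
      (sh (m₁ + ((r + 1 : ℕ) : ℤ)) M (me + ((r + 1 : ℕ) : ℤ)) hsh θ ≫ U.κQ M (r + 2) (𝟙_ T))
      (hcx2.trans (congrArg (fun z => z ≫ U.cobar.q (r + 1) (V ⊗ (𝟙_ T)⟦M⟧))
        (Category.assoc _ _ _).symm))
    refine (add_comm _ _).trans ?_
    rw [Preadditive.add_comp]
    refine congrArg₂ (· + ·) (h9.trans ?_) (h8.trans ?_)
    · simp only [Category.assoc]
    · rw [oc]
      simp only [Category.assoc]

end Vale.Agent.P257.H820
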