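import Vale.Agent.P257.H820.Leib3

/-!
# P257 (helper820): the Leibniz rule in the couple `(tow 𝟙) ⊗ V`
-/

open CategoryTheory MonoidalCategory Limits Pretriangulated MonObj

universe v u

set_option linter.unusedSectionVars false

namespace Vale.Agent.P257.H820

open Vale.Agent.P251.T Vale.Agent.P251.S

variable {T : Type u} [Category.{v} T] [Preadditive T] [HasZeroObject T] [HasShift T ℤ]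
  [∀ n : ℤ, (shiftFunctor T n).Additive] [Pretriangulated T] [MonoidalCategory T]
  [SymmetricCategory T] [TensorTriangulated T]

variable {R : T} [MonObj R] (U : UnitCof R)

/-- The map `Q s 𝟙 ⊗ V ⟶ Q s V`. -/
def NV (V : T) (s : ℕ) : (tensorRight V).obj (U.cobar.Q s (𝟙_ T)) ⟶ U.cobar.Q s V :=
  (nV U V s (𝟙_ T)).hom ≫ U.cobar.Qm s (λ_ V).hom

@[reassoc]
lemma redC_NV {V : T} (i : 𝟙_ T ⟶ V) (s : ℕ) :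
    (redC i).app (U.cobar.Q s (𝟙_ T)) ≫ NV U V s = U.cobar.Qm s i := redC_nV U i s

@[reassoc]
lemma d_NV (V : T) (s : ℕ) :
    (tensorRight V).map (U.cobar.d s (𝟙_ T)) ≫ NV U V (s + 1) = NV U V s ≫ U.cobar.d s V := by
  have h1 := nV_d U V s (𝟙_ T)
  have h2 := U.cobar.d_naturality s (λ_ V).hom
  rw [NV, NV, Category.assoc]
  refine ((reassoc_of% h1) _).trans ?_
  exact congrArg _ h2.symm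

/-- The class of a cochain. -/
lemma fE_qE_redC {V : T} (i : 𝟙_ T ⟶ V) {s : ℕ} {n t : ℤ} (h : n + (s : ℤ) = t)
    (x : (𝟙_ T)⟦t⟧ ⟶ U.cobar.Q (s + 1) (𝟙_ T)) :
    (TV U V).fE (𝟙_ T) s n (U.qE (𝟙_ T) (tensorRight V) (𝟙_ T) h
      (x ≫ (redC i).app (U.cobar.Q (s + 1) (𝟙_ T)))) =
      ((U.tow V).eE (𝟙_ T) h).symm (x ≫ U.cobar.Qm (s + 1) i ≫ U.cobar.q s V) := by
  rw [AddEquiv.eq_symm_apply]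
  exact eE_fE_qE_redC U i h x

/-- **The Leibniz rule in the couple `(tow 𝟙) ⊗ V`.** -/
theorem leibnizCV [IsTriangulated T] (U : UnitCof R)
    (hpack : ∀ (F : UFib R) (q : ℕ), 1 ≤ q → Nonempty (NPack F q)) {r : ℕ} (hr : 2 ≤ r)
    {V : T} (i : 𝟙_ T ⟶ V) (m : V ⊗ V ⟶ V) (hm : (i ▷ V) ≫ m = (λ_ V).hom)
    {n M N : ℤ} (n' : ℕ) (hM : M = 2 * (n' : ℤ)) (hN : n + M = N)
    (v0 : (𝟙_ T)⟦n⟧ ⟶ U.cobar.Q 1 (𝟙_ T)) (ζ0 : (𝟙_ T)⟦M⟧ ⟶ U.cobar.Q 2 (𝟙_ T))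
    (hζ : (ζ0 ≫ (redC i).app (U.cobar.Q 2 (𝟙_ T))) ≫
      (tensorRight V).map (U.cobar.d 2 (𝟙_ T)) = 0)
    (hv : ∃ g : (𝟙_ T)⟦N⟧ ⟶ (tensorRight V).obj (U.cobar.Q 1 (𝟙_ T)),
      (sh n M N hN v0 ≫ (csh R M (𝟙_ T)).inv ≫ (R ◁ ζ0) ≫ om U 1 (𝟙_ T)) ≫
        (redC i).app (U.cobar.Q 2 (𝟙_ T)) = g ≫ (tensorRight V).map (U.cobar.d 1 (𝟙_ T)))
    {m₁ : ℤ} (hm₁ : n = m₁ + 1) (y : (CT U V).D (r + 1) m₁)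
    (hy : (CT U V).proj m₁ (Nat.le_add_left 1 r) y = (CT U V).k 0 n m₁ hm₁
      (U.qE (𝟙_ T) (tensorRight V) (𝟙_ T) (show n + ((0 : ℕ) : ℤ) = n by simp)
        (v0 ≫ (redC i).app (U.cobar.Q 1 (𝟙_ T)))))
    {t₁ : ℤ} (ht₁ : m₁ + ((r + 1 : ℕ) : ℤ) = t₁) (θ : (𝟙_ T)⟦t₁⟧ ⟶ U.cobar.Q (r + 2) (𝟙_ T))
    (hθ : (CT U V).j (r + 1) m₁ y = U.qE (𝟙_ T) (tensorRight V) (𝟙_ T) ht₁
      (θ ≫ (redC i).app (U.cobar.Q (r + 2) (𝟙_ T))))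
    {e₁ e₂ : ℤ} (he₁ : e₁ + ((1 : ℕ) : ℤ) = M) (he₂ : e₁ = e₂ + 1)
    (c : (CT U V).D (r + 2) e₂)
    (hc : (CT U V).proj e₂ (Nat.le_add_left 2 r) c = (CT U V).k 1 e₁ e₂ he₂
      (U.qE (𝟙_ T) (tensorRight V) (𝟙_ T) he₁ (ζ0 ≫ (redC i).app (U.cobar.Q 2 (𝟙_ T)))))
    {t₂ : ℤ} (ht₂ : e₂ + ((r + 2 : ℕ) : ℤ) = t₂) (γ : (𝟙_ T)⟦t₂⟧ ⟶ U.cobar.Q (r + 3) (𝟙_ T))
    (hγ : (CT U V).j (r + 2) e₂ c = U.qE (𝟙_ T) (tensorRight V) (𝟙_ T) ht₂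
      (γ ≫ (redC i).app (U.cobar.Q (r + 3) (𝟙_ T))))
    {m₃ t₃ : ℤ} (hm₃ : m₃ = e₂ + n) (ht₃ : m₃ + ((r + 2 : ℕ) : ℤ) = t₃)
    (h₁₃ : t₁ + M = t₃) (h₂₃ : n + t₂ = t₃) :
    ∃ e : (CT U V).D (r + 2) m₃, (CT U V).proj m₃ (Nat.le_add_left 2 r) e = 0 ∧
      (CT U V).j (r + 2) m₃ e = U.qE (𝟙_ T) (tensorRight V) (𝟙_ T) ht₃
        ((sh t₁ M t₃ h₁₃ θ ≫ U.κQ M (r + 2) (𝟙_ T) ≫ cup1 U ζ0 (r + 1) +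
          sh n t₂ t₃ h₂₃ v0 ≫ (csh R t₂ (𝟙_ T)).inv ≫ (R ◁ γ) ≫ om U (r + 2) (𝟙_ T)) ≫
          (redC i).app (U.cobar.Q (r + 3) (𝟙_ T))) := by
  have hζ' : (ζ0 ≫ U.cobar.Qm 2 i) ≫ U.cobar.d 2 V = 0 := by
    rw [← redC_NV U i 2, Category.assoc, Category.assoc, ← d_NV]
    rw [Category.assoc] at hζ
    rw [reassoc_of% hζ, zero_comp]
  have hv' : ∃ g : (𝟙_ T)⟦N⟧ ⟶ U.cobar.Q 1 V,
      (oc hN v0 ζ0 ≫ om U 1 (𝟙_ T)) ≫ U.cobar.Qm 2 i = g ≫ U.cobar.d 1 V := by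
    obtain ⟨g, hg⟩ := hv
    refine ⟨g ≫ NV U V 1, ?_⟩
    have h1 : oc hN v0 ζ0 ≫ om U 1 (𝟙_ T) =
        sh n M N hN v0 ≫ (csh R M (𝟙_ T)).inv ≫ (R ◁ ζ0) ≫ om U 1 (𝟙_ T) := by
      rw [oc]
      simp only [Category.assoc]
    rw [h1, ← redC_NV U i 2, ← Category.assoc, hg, Category.assoc, d_NV, Category.assoc]
  let φ := TV U V
  have hy' : (CA U V).proj m₁ (Nat.le_add_left 1 r) (φ.fD (𝟙_ T) (r + 1) m₁ y) =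
      (CA U V).k 0 n m₁ hm₁
      (((U.tow V).eE (𝟙_ T) (show n + ((0 : ℕ) : ℤ) = n by simp)).symm (v0 ≫ (R ◁ i))) := by
    refine (proj_fD φ (𝟙_ T) m₁ (Nat.le_add_left 1 r) y).trans ?_
    rw [hy]
    refine (φ.k_fE (𝟙_ T) 0 n m₁ hm₁ _).symm.trans ?_
    refine congrArg ((CA U V).k 0 n m₁ hm₁) ?_
    refine (fE_qE_redC U i _ v0).trans ?_
    refine congrArg _ ?_
    exact congrArg (fun z => v0 ≫ z) (Category.comp_id _)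
  have hθ' : (U.tow V).eE (𝟙_ T) ht₁ ((CA U V).j (r + 1) m₁ (φ.fD (𝟙_ T) (r + 1) m₁ y)) =
      θ ≫ U.cobar.Qm (r + 2) i ≫ U.cobar.q (r + 1) V := by
    refine (congrArg ((U.tow V).eE (𝟙_ T) ht₁) (φ.j_fD (𝟙_ T) (r + 1) m₁ y)).trans ?_
    rw [hθ]
    exact eE_fE_qE_redC U i ht₁ θ
  have hc' : (CA U V).proj e₂ (Nat.le_add_left 2 r) (φ.fD (𝟙_ T) (r + 2) e₂ c) =
      (CA U V).k 1 e₁ e₂ he₂
      (((U.tow V).eE (𝟙_ T) he₁).symm (ζ0 ≫ U.cobar.Qm 2 i ≫ U.cobar.q 1 V)) := by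
    refine (proj_fD φ (𝟙_ T) e₂ (Nat.le_add_left 2 r) c).trans ?_
    rw [hc]
    refine (φ.k_fE (𝟙_ T) 1 e₁ e₂ he₂ _).symm.trans ?_
    exact congrArg ((CA U V).k 1 e₁ e₂ he₂) (fE_qE_redC U i he₁ ζ0)
  have hγ' : (U.tow V).eE (𝟙_ T) ht₂ ((CA U V).j (r + 2) e₂ (φ.fD (𝟙_ T) (r + 2) e₂ c)) =
      γ ≫ U.cobar.Qm (r + 3) i ≫ U.cobar.q (r + 2) V := by
    refine (congrArg ((U.tow V).eE (𝟙_ T) ht₂) (φ.j_fD (𝟙_ T) (r + 2) e₂ c)).trans ?_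
    rw [hγ]
    exact eE_fE_qE_redC U i ht₂ γ
  obtain ⟨e, he1, he2⟩ := leibnizQ U hpack hr i m hm n' hM hN v0 ζ0 hζ' hv' hm₁
    (φ.fD (𝟙_ T) (r + 1) m₁ y) hy' ht₁ θ hθ' he₁ he₂ (φ.fD (𝟙_ T) (r + 2) e₂ c) hc' ht₂ γ hγ'
    hm₃ ht₃ h₁₃ h₂₃
  obtain ⟨e', rfl⟩ := (fD_bijective φ (𝟙_ T) (r + 2) m₃).2 e
  refine ⟨e', ?_, ?_⟩
  · apply (fD_bijective φ (𝟙_ T) 2 m₃).1
    refine (proj_fD φ (𝟙_ T) m₃ (Nat.le_add_left 2 r) e').symm.trans ?_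
    exact he1.trans (map_zero _).symm
  · apply fE_injective φ (𝟙_ T) (r + 2) m₃
    apply ((U.tow V).eE (𝟙_ T) ht₃).injective
    refine Eq.trans ?_ (eE_fE_qE_redC U i ht₃ _).symm
    refine Eq.trans ?_ he2
    exact congrArg ((U.tow V).eE (𝟙_ T) ht₃) (φ.j_fD (𝟙_ T) (r + 2) m₃ e').symm

end Vale.Agent.P257.H820
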