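import Vale.Agent.P257.H820.Phi
import Vale.Agent.P257.H712.LeibV

/-!
# P257 (helper820): the Leibniz rule in the couple of the tower
-/

open CategoryTheory MonoidalCategory Limits Pretriangulated MonObj

universe v u

set_option linter.unusedSectionVars false

namespace Vale.Agent.P257.H820

open Vale.Agent.P251.T Vale.Agent.P251.S

variable {T : Type u} [Category.{v} T] [Preadditive T] [HasZeroObject T] [HasShift T ℤ]
  [∀ n : ℤ, (shiftFunctor T n).Additive] [Pretriangulated T] [MonoidalCategory T]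
  [SymmetricCategory T] [TensorTriangulated T]

variable {R : T} [MonObj R]

/-- The couple of the tower of `A`. -/
noncomputable abbrev CA (U : UnitCof R) (A : T) : Couple.{v, v} := (U.tow A).couple (𝟙_ T)

namespace Link

variable {U : UnitCof R} {F : UFib R} (L : Link U F)

/-- The comparison, with values in `Hom (-, (IB s A)⟦1⟧)`. -/
noncomputable def toI (s : ℕ) (A : T) (m n : ℤ) (h : m + 1 = n) :
    (CA U A).D s m ≃+ ((𝟙_ T)⟦n⟧ ⟶ (IB F.I s A)⟦(1 : ℤ)⟧) :=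
  (L.ΦB (𝟙_ T) s A m (m + (s : ℤ)) rfl).trans (sh m 1 n h)

lemma toI_apply (s : ℕ) (A : T) (m n : ℤ) (h : m + 1 = n) (y : (CA U A).D s m) :
    L.toI s A m n h y = sh m 1 n h (L.ΦB (𝟙_ T) s A m (m + (s : ℤ)) rfl y) := rfl

lemma toI_i (s : ℕ) (A : T) (m n : ℤ) (h : m + 1 = n) (y : (CA U A).D (s + 1) m) :
    L.toI s A m n h ((CA U A).i s m y) =
      L.toI (s + 1) A m n h y ≫ (IBc F.ε s A)⟦(1 : ℤ)⟧' := by
  rw [toI_apply, toI_apply, ← sh_comp]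
  congr 1
  exact L.ΦB_i s A m (m + (s : ℤ)) (m + ((s + 1 : ℕ) : ℤ)) rfl (by push_cast; ring) rfl y

lemma toI_proj (r : ℕ) (A : T) (m n : ℤ) (h : m + 1 = n) (y : (CA U A).D (r + 1) m) :
    L.toI 1 A m n h ((CA U A).proj m (Nat.le_add_left 1 r) y) =
      L.toI (r + 1) A m n h y ≫ (IBcol F.ε r (F.I ⊗ A))⟦(1 : ℤ)⟧' := by
  induction r with
  | zero =>
    rw [Couple.proj_self, IBcol_zero]
    exact (congrArg _ (CategoryTheory.Functor.map_id _ _)).trans (Category.comp_id _) |>.symm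
  | succ r ih =>
    rw [Couple.proj_succ _ _ (Nat.le_add_left 1 r), ih, toI_i, Category.assoc]
    congr 1
    rw [← Functor.map_comp, ← IBc_col]
    rfl

lemma toI_k (A : T) (m n : ℤ) (h : n = m + 1) (x : (CA U A).E 0 n) (x' : (𝟙_ T)⟦n⟧ ⟶ R ⊗ A)
    (hx : (U.tow A).eE (𝟙_ T) (show n + ((0 : ℕ) : ℤ) = n by simp) x = x') :
    L.toI 1 A m n h.symm ((CA U A).k 0 n m h x) = -(x' ≫ F.bI A) := by
  subst h
  have h1 := (U.tow A).eD_k (𝟙_ T) (n := m + 1) (m := m) (s := 0) (t := m + 1) rfl (by simp)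
    (by push_cast; ring) x
  rw [hx] at h1
  have h2 : ∀ y : (𝟙_ T)⟦m + ((1 : ℕ) : ℤ)⟧ ⟶ U.J ⊗ A,
      sh m 1 (m + 1) rfl (L.ΦB (𝟙_ T) 1 A m (m + ((1 : ℕ) : ℤ)) rfl y) =
      cst (𝟙_ T) (U.J ⊗ A) (show m + ((1 : ℕ) : ℤ) = m + 1 by push_cast; ring) y ≫
        (L.χ A).hom := by
    intro y
    rw [ΦB_succ, AddEquiv.apply_symm_apply, ψ_hom, csI_zero_hom, IBm_zero, Category.comp_id]
    rfl
  have h4 : (x' ≫ (U.ρ ▷ A)) ≫ (L.χ A).hom = -(x' ≫ F.bI A) := by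
    rw [Category.assoc, L.ρ_χ, Preadditive.comp_neg]
  refine (h2 _).trans ?_
  exact (congrArg (fun z : (𝟙_ T)⟦m + 1⟧ ⟶ U.J ⊗ A => z ≫ (L.χ A).hom) h1).trans h4

/-- The translation of the hypotheses of the Leibniz rule. -/
lemma toI_lift {r : ℕ} {A : T} {m n : ℤ} (h : n = m + 1) (x : (𝟙_ T)⟦n⟧ ⟶ R ⊗ A)
    (y : (CA U A).D (r + 1) m)
    (hy : (CA U A).proj m (Nat.le_add_left 1 r) y = (CA U A).k 0 n m h
      (((U.tow A).eE (𝟙_ T) (show n + ((0 : ℕ) : ℤ) = n by simp)).symm x)) :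
    x ≫ F.bI A = (-(L.toI (r + 1) A m n h.symm y)) ≫ (IBcol F.ε r (F.I ⊗ A))⟦(1 : ℤ)⟧' := by
  have h1 := L.toI_proj r A m n h.symm y
  rw [hy, L.toI_k A m n h _ x (AddEquiv.apply_symm_apply _ _)] at h1
  rw [Preadditive.neg_comp, ← h1, neg_neg]

end Link

lemma oc_neg {P X Z Y : T} {n k m : ℤ} (h : n + k = m) (x : P⟦n⟧ ⟶ X ⊗ Z) (g : Z⟦k⟧ ⟶ Y) :
    oc h x (-g) = -oc h x g := by
  have h1 : X ◁ (-g) = -(X ◁ g) := (tensorLeft X).map_neg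
  rw [oc, oc, h1, Preadditive.comp_neg, Preadditive.comp_neg]

/-- **The Leibniz rule in the couple of the tower.** -/
theorem leibnizJ [IsTriangulated T] (U : UnitCof R)
    (hpack : ∀ (F : UFib R) (q : ℕ), 1 ≤ q → Nonempty (NPack F q)) {r : ℕ} (hr : 2 ≤ r)
    {V A : T} (i : 𝟙_ T ⟶ V) (a : V ⊗ A ⟶ A) (ha : uN i A ≫ a = 𝟙 A)
    {n M N mf me : ℤ} (hN : n + M = N) (hmf : M = mf + 1) (hme : N = me + 1)
    (f : (𝟙_ T)⟦M⟧ ⟶ R ⊗ A) (cf : (𝟙_ T)⟦mf + ((r + 1 : ℕ) : ℤ)⟧ ⟶ U.cobar.B (r + 1) A)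
    (hf : (CA U A).proj mf (Nat.le_add_left 1 r) cf = (CA U A).k 0 M mf hmf
      (((U.tow A).eE (𝟙_ T) (show M + ((0 : ℕ) : ℤ) = M by simp)).symm f))
    (v : (𝟙_ T)⟦n⟧ ⟶ R ⊗ 𝟙_ T)
    (cx : (𝟙_ T)⟦me + ((r + 1 : ℕ) : ℤ)⟧ ⟶ U.cobar.B (r + 1) (V ⊗ (𝟙_ T)⟦M⟧))
    (hx : (CA U (V ⊗ (𝟙_ T)⟦M⟧)).proj me (Nat.le_add_left 1 r) cx =
      (CA U (V ⊗ (𝟙_ T)⟦M⟧)).k 0 N me hme
      (((U.tow (V ⊗ (𝟙_ T)⟦M⟧)).eE (𝟙_ T) (show N + ((0 : ℕ) : ℤ) = N by simp)).symm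
        (oc hN v (uN i ((𝟙_ T)⟦M⟧)))))
    (hoc : n + (mf + ((r + 1 : ℕ) : ℤ)) = me + ((r + 1 : ℕ) : ℤ)) :
    ∃ e : (𝟙_ T)⟦me + ((r + 1 : ℕ) : ℤ)⟧ ⟶ U.cobar.B (r + 1) A,
      (CA U A).proj me (Nat.le_add_left 1 r) e = (CA U A).k 0 N me hme
        (((U.tow A).eE (𝟙_ T) (show N + ((0 : ℕ) : ℤ) = N by simp)).symm
          (oc hN v f ≫ mulMap R A)) ∧
      e ≫ unitMap R (U.cobar.B (r + 1) A) = oc hoc v cf +
        cx ≫ U.cobar.Bm (r + 1) ((V ◁ f) ≫ sw V R A ≫ (R ◁ a)) ≫ mvB U R (r + 1) A := by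
  obtain ⟨F, ⟨L⟩⟩ := exists_link U
  obtain ⟨q, rfl⟩ : ∃ q, r = q + 1 := ⟨r - 1, by omega⟩
  obtain ⟨Pk⟩ := hpack F q (by omega)
  have hx1 := L.toI_lift hme _ cx hx
  have h3 : ∀ {Y : T} (g : (𝟙_ T)⟦M⟧ ⟶ Y), (sh n M N hN v ≫ (csh R M (𝟙_ T)).inv) ≫ (R ◁ g) =
      oc hN v g := fun g => Category.assoc _ _ _
  obtain ⟨e, he1, he2⟩ := Pk.leibnizV i a ha f _ (L.toI_lift hmf f cf hf)
    (sh n M N hN v ≫ (csh R M (𝟙_ T)).inv) _ (by rw [h3]; exact hx1)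
  have h4 : (sh n M N hN v ≫ (csh R M (𝟙_ T)).inv) ≫ (R ◁ f) ≫ mulMap R A =
      oc hN v f ≫ mulMap R A := by
    rw [← Category.assoc, h3]
  rw [h4] at he1
  rw [h3, oc_neg, Preadditive.neg_comp, Preadditive.neg_comp, ← neg_add] at he2
  obtain ⟨y, hy⟩ : ∃ y : (𝟙_ T)⟦me + ((q + 1 + 1 : ℕ) : ℤ)⟧ ⟶ U.cobar.B (q + 1 + 1) A,
      L.toI (q + 1 + 1) A me N hme.symm y = -e := (L.toI (q + 1 + 1) A me N hme.symm).surjective _
  refine ⟨y, ?_, ?_⟩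
  · apply (L.toI 1 A me N hme.symm).injective
    refine (L.toI_proj (q + 1) A me N hme.symm y).trans ?_
    refine Eq.trans ?_ (L.toI_k A me N hme _ _ (AddEquiv.apply_symm_apply _ _)).symm
    refine (congrArg (fun z => z ≫ (IBcol F.ε (q + 1) (F.I ⊗ A))⟦(1 : ℤ)⟧') hy).trans ?_
    exact (Preadditive.neg_comp _ _).trans (congrArg Neg.neg he1)
  · apply (L.ΦR (𝟙_ T) (q + 1 + 1) A me (me + ((q + 1 + 1 : ℕ) : ℤ)) rfl).injective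
    apply (sh me 1 N hme.symm).injective
    have h6 : sh me 1 N hme.symm (L.ΦR (𝟙_ T) (q + 1 + 1) A me
          (me + ((q + 1 + 1 : ℕ) : ℤ)) rfl (oc hoc v cf)) =
        oc hN v (sh mf 1 M hmf.symm
          (L.ΦB (𝟙_ T) (q + 1 + 1) A mf (mf + ((q + 1 + 1 : ℕ) : ℤ)) rfl cf)) ≫
            (csh R 1 _).hom := by
      rw [L.ΦR_oc (q + 1 + 1) A rfl (show n + mf = me by omega) rfl v cf,
        oc_sh (show n + mf = me by omega) hmf.symm hme.symm]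
    have h8 : sh me 1 N hme.symm (L.ΦB (𝟙_ T) (q + 1 + 1) A me
        (me + ((q + 1 + 1 : ℕ) : ℤ)) rfl y) = -e := hy
    rw [L.ΦR_un, sh_comp, map_add, map_add, h6, ← Category.assoc cx, L.ΦR_mv, L.ΦB_nat,
      sh_comp, sh_comp, Category.assoc, h8, Preadditive.neg_comp, he2, neg_neg]
    rfl

end Vale.Agent.P257.H820
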