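import Vale.Agent.P257.H820.Pack

/-!
# P257 (helper820): from the cofibre `J` of the unit to its fibre `I`
-/

open CategoryTheory MonoidalCategory Limits Pretriangulated MonObj

universe v u

set_option linter.unusedSectionVars false

namespace Vale.Agent.P257.H820

open Vale.Agent.P251.T Vale.Agent.P251.S

variable {T : Type u} [Category.{v} T] [Preadditive T] [HasZeroObject T] [HasShift T ℤ]
  [∀ n : ℤ, (shiftFunctor T n).Additive] [Pretriangulated T] [MonoidalCategory T]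
  [SymmetricCategory T] [TensorTriangulated T]

variable {R : T} [MonObj R]

/-- A fibre `I` of the unit, linked to the cofibre `J` by `J ≅ I⟦1⟧`. -/
structure Link (U : UnitCof R) (F : UFib R) where
  /-- the isomorphism -/
  ι : U.J ≅ F.I⟦(1 : ℤ)⟧
  ι_ε : ι.hom ≫ F.ε⟦(1 : ℤ)⟧' = U.δ
  ρ_ι : U.ρ ≫ ι.hom = -F.dR

/-- The fibre of the unit exists. -/
theorem exists_link (U : UnitCof R) : ∃ F : UFib R, Nonempty (Link U F) := by
  let ι : U.J ≅ (U.J⟦(-1 : ℤ)⟧)⟦(1 : ℤ)⟧ := ((shiftEquiv T (1 : ℤ)).counitIso.app U.J).symm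
  let ε : U.J⟦(-1 : ℤ)⟧ ⟶ 𝟙_ T := (shiftFunctor T (1 : ℤ)).preimage (ι.inv ≫ U.δ)
  have hε : ι.hom ≫ ε⟦(1 : ℤ)⟧' = U.δ := by
    rw [Functor.map_preimage, Iso.hom_inv_id_assoc]
  have hd : Triangle.mk ε η[R] (-(U.ρ ≫ ι.hom)) ∈ distTriang T := by
    rw [rotate_distinguished_triangle]
    let γ : (U.J⟦(-1 : ℤ)⟧)⟦(1 : ℤ)⟧ ≅ U.J := ⟨-ι.inv, -ι.hom, by simp, by simp⟩
    refine isomorphic_distinguished _ U.dist _ ?_
    refine Triangle.isoMk _ _ (Iso.refl _) (Iso.refl _) γ ?_ ?_ ?_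
    · change η[R] ≫ 𝟙 _ = 𝟙 _ ≫ η[R]
      rw [Category.comp_id, Category.id_comp]
    · change (-(U.ρ ≫ ι.hom)) ≫ (-ι.inv) = 𝟙 _ ≫ U.ρ
      simp
    · change (-ε⟦(1 : ℤ)⟧') ≫ (𝟙 _)⟦(1 : ℤ)⟧' = (-ι.inv) ≫ U.δ
      rw [← hε, CategoryTheory.Functor.map_id, Category.comp_id, Preadditive.neg_comp,
        Iso.inv_hom_id_assoc]
  exact ⟨⟨_, ε, _, hd⟩, ⟨⟨ι, hε, (neg_neg _).symm⟩⟩⟩

namespace Link

variable {U : UnitCof R} {F : UFib R} (L : Link U F)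

/-- `J ⊗ W ≅ (I ⊗ W)⟦1⟧`. -/
noncomputable def χ (W : T) : U.J ⊗ W ≅ (F.I ⊗ W)⟦(1 : ℤ)⟧ :=
  whiskerRightIso L.ι W ≪≫ shR F.I W

lemma χ_hom (W : T) : (L.χ W).hom = (L.ι.hom ▷ W) ≫ (shR F.I W).hom := rfl

@[reassoc]
lemma χ_nat {W W' : T} (f : W ⟶ W') :
    (U.J ◁ f) ≫ (L.χ W').hom = (L.χ W).hom ≫ (F.I ◁ f)⟦(1 : ℤ)⟧' := by
  rw [χ_hom, χ_hom, whisker_exchange_assoc, shR_nat_right, Category.assoc]

@[reassoc]
lemma ρ_χ (W : T) : (U.ρ ▷ W) ≫ (L.χ W).hom = -F.bI W := by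
  rw [χ_hom, ← comp_whiskerRight_assoc, L.ρ_ι, UFib.bI]
  have : (-F.dR) ▷ W = -(F.dR ▷ W) := by
    rw [eq_neg_iff_add_eq_zero, ← MonoidalPreadditive.add_whiskerRight, neg_add_cancel,
      MonoidalPreadditive.zero_whiskerRight]
  rw [this, Preadditive.neg_comp]

/-- The boundary map of the tower. -/
lemma bdry_eq (W : T) : U.bdry W = (L.χ W).hom ≫ (ep F.ε W)⟦(1 : ℤ)⟧' := by
  have h1 : U.bdry W = (β_ U.J W).hom ≫ (W ◁ U.δ) ≫ (csh W 1 (𝟙_ T)).hom ≫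
      ((ρ_ W).hom)⟦(1 : ℤ)⟧' := by
    rw [csh_one, UnitCof.bdry]
    simp only [Category.assoc]
  have h2 : (β_ W F.I).hom ≫ ep F.ε W = (W ◁ F.ε) ≫ (ρ_ W).hom := by
    rw [ep, ← BraidedCategory.braiding_naturality_right_assoc, braiding_tensorUnit_right]
    simp
  rw [h1, ← L.ι_ε, MonoidalCategory.whiskerLeft_comp, χ_hom, shR_hom]
  simp only [Category.assoc, ← Functor.map_comp]
  rw [h2, csh_nat_assoc, BraidedCategory.braiding_naturality_left_assoc, Functor.map_comp]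

end Link

end Vale.Agent.P257.H820
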