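import Vale.Agent.P257.H820.Leib

/-!
# P257 (helper820): the Leibniz rule for maps
-/

open CategoryTheory MonoidalCategory Limits Pretriangulated MonObj

universe v u

set_option linter.unusedSectionVars false

namespace Vale.Agent.P257.H820

open Vale.Agent.P251.T Vale.Agent.P251.S

variable {T : Type u} [Category.{v} T] [Preadditive T] [HasZeroObject T] [HasShift T ℤ]
  [∀ n : ℤ, (shiftFunctor T n).Additive] [Pretriangulated T] [MonoidalCategory T]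
  [SymmetricCategory T] [TensorTriangulated T]

namespace NData

variable {R : T} [MonObj R] {F : UFib R} (D : NData F)

lemma act_eq {X Y Z W : T} (m : X ⊗ Y ⟶ Z) {Q : T} (h : Q ⟶ X ⊗ (Y ⊗ W)) :
    h ≫ act m W = h ≫ (α_ X Y W).inv ≫ (m ▷ W) := rfl

lemma act_add {X Y Z W : T} (m m' : X ⊗ Y ⟶ Z) : act (m + m') W = act m W + act m' W := by
  rw [act, act, act, MonoidalPreadditive.add_whiskerRight, Preadditive.comp_add]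

lemma b2_add {X Y X' Y' W : T} (m m' : X ⊗ Y ⟶ X' ⊗ Y') :
    b2 (m + m') W = b2 m W + b2 m' W := by
  rw [b2, b2, b2, MonoidalPreadditive.add_whiskerRight, Preadditive.add_comp,
    Preadditive.comp_add]

lemma act_whiskerRight {X X' Y Z W : T} (f : X ⟶ X') (m : X' ⊗ Y ⟶ Z) :
    act ((f ▷ Y) ≫ m) W = (f ▷ (Y ⊗ W)) ≫ act m W := by
  simp [act]

lemma act_whiskerLeft {X Y Y' Z W : T} (f : Y ⟶ Y') (m : X ⊗ Y' ⟶ Z) :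
    act ((X ◁ f) ≫ m) W = (X ◁ (f ▷ W)) ≫ act m W := by
  simp [act]

lemma act_comp {X Y Z Z' W : T} (m : X ⊗ Y ⟶ Z) (f : Z ⟶ Z') :
    act (m ≫ f) W = act m W ≫ (f ▷ W) := by
  simp [act]

lemma act_mul (W : T) : act μ[R] W = mulMap R W := rfl

/-- The Leibniz rule. -/
theorem leibniz {A' A Q : T} (a : A' ⟶ D.N ⊗ A) (cb : A' ⟶ F.I ⊗ (D.K ⊗ A))
    (ha : a ≫ (D.pr ▷ A) = cb ≫ ep F.ε (D.K ⊗ A)) (y : Q ⟶ D.N ⊗ A')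
    (c : Q ⟶ F.I ⊗ (D.K ⊗ A')) (hy : y ≫ (D.pr ▷ A') = c ≫ ep F.ε (D.K ⊗ A')) :
    ∃ (z : Q ⟶ D.N ⊗ A) (e : Q ⟶ F.I ⊗ (D.K ⊗ A)) (w : Q⟦(1 : ℤ)⟧ ⟶ R ⊗ (D.K ⊗ A)),
      z ≫ (D.r ▷ A) = (y ≫ (D.r ▷ A')) ≫ (R ◁ (a ≫ (D.r ▷ A))) ≫ mulMap R A ∧
      z ≫ (D.pr ▷ A) = e ≫ ep F.ε (D.K ⊗ A) ∧
      (e ≫ unitMap R (F.I ⊗ (D.K ⊗ A)) - (y ≫ (D.r ▷ A')) ≫ (R ◁ cb) -
        c ≫ (F.I ◁ (D.K ◁ (a ≫ (D.r ▷ A)))) ≫ (F.I ◁ sw D.K R A) ≫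
          sw F.I R (D.K ⊗ A))⟦(1 : ℤ)⟧' = w ≫ F.dI (D.K ⊗ A) := by
  obtain ⟨m, hm1, hm2⟩ := D.exists_pairing
  obtain ⟨Ψ, hΨ⟩ := D.exists_delta m hm1 hm2
  obtain ⟨Ψ', hΨ'⟩ := D.exists_delta' m hm1 hm2
  -- the product of the boundaries
  have hKK : y ≫ (D.N ◁ a) ≫ (D.pr ▷ (D.N ⊗ A)) ≫ (D.K ◁ (D.pr ▷ A)) =
      c ≫ (F.I ◁ (D.K ◁ cb)) ≫ (F.I ◁ (D.K ◁ ep F.ε (D.K ⊗ A))) ≫
        ep F.ε (D.K ⊗ (D.K ⊗ A)) := by
    rw [whisker_exchange_assoc, ← MonoidalCategory.whiskerLeft_comp, ha,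
      reassoc_of% hy, ← ep_nat, MonoidalCategory.whiskerLeft_comp,
      MonoidalCategory.whiskerLeft_comp, Category.assoc]
  have hKK' : ∀ {W' : T} (f : D.K ⊗ (D.K ⊗ A) ⟶ R ⊗ W'),
      y ≫ (D.N ◁ a) ≫ (D.pr ▷ (D.N ⊗ A)) ≫ (D.K ◁ (D.pr ▷ A)) ≫ f = 0 := by
    intro W' f
    rw [reassoc_of% hKK, F.ep_comp_eq_zero, comp_zero, comp_zero, comp_zero]
  -- the first formula
  have hz1 : ((y ≫ (D.N ◁ a)) ≫ act m A) ≫ (D.r ▷ A) =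
      (y ≫ (D.r ▷ A')) ≫ (R ◁ (a ≫ (D.r ▷ A))) ≫ mulMap R A := by
    rw [Category.assoc, ← act_comp, hΨ', act_add, Preadditive.comp_add, act_whiskerRight,
      act_whiskerRight, act_whiskerLeft, act_whiskerLeft, act_mul,
      MonoidalCategory.whiskerLeft_comp]
    simp only [Category.assoc]
    have h0 := hKK' (act Ψ' A)
    rw [h0, add_zero, whisker_exchange_assoc]
  -- the terms
  let g1 : Q ⟶ F.I ⊗ (D.N ⊗ (D.K ⊗ A)) := y ≫ (D.N ◁ cb) ≫ sw D.N F.I (D.K ⊗ A)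
  let g2 : Q ⟶ F.I ⊗ (D.N ⊗ (D.K ⊗ A)) := c ≫ (F.I ◁ (D.K ◁ a)) ≫ (F.I ◁ sw D.K D.N A)
  let g3 : Q ⟶ F.I ⊗ (D.N ⊗ (D.K ⊗ A)) := c ≫ (F.I ◁ (D.K ◁ cb)) ≫
    (F.I ◁ (D.K ◁ ep F.ε (D.K ⊗ A))) ≫ (F.I ◁ b2 Ψ A)
  have hz2 : ((y ≫ (D.N ◁ a)) ≫ act m A) ≫ (D.pr ▷ A) ≫ uN D.un (D.K ⊗ A) =
      (g1 + g2 + g3) ≫ ep F.ε (D.N ⊗ (D.K ⊗ A)) := by
    have h1 : act m A ≫ (D.pr ▷ A) ≫ uN D.un (D.K ⊗ A) = b2 (m ≫ D.pr ≫ uN D.un D.K) A := by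
      rw [← Category.assoc m, b2_act_uN, act_comp, Category.assoc]
    rw [Category.assoc, h1, hΨ, b2_add, b2_add, b2_comp, b2_comp, b2_comp, b2_whiskerLeft,
      b2_whiskerRight, b2_braid, b2_whiskerLeft, Preadditive.comp_add,
      Preadditive.comp_add, Preadditive.add_comp, Preadditive.add_comp]
    congr 1
    · congr 1
      · simp only [g1, Category.assoc]
        rw [sw_ep, ← MonoidalCategory.whiskerLeft_comp, ← MonoidalCategory.whiskerLeft_comp, ha]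
      · simp only [g2, Category.assoc]
        rw [whisker_exchange_assoc, reassoc_of% hy, ep_nat, ep_nat_assoc]
    · simp only [g3, Category.assoc]
      rw [ep_nat, reassoc_of% hKK]
  -- the lift
  obtain ⟨e, he⟩ := F.exists_lift (((y ≫ (D.N ◁ a)) ≫ act m A) ≫ (D.pr ▷ A)) (by
    have h1 := congrArg (fun f => f ≫ (D.r ▷ (D.K ⊗ A))) hz2
    simp only [Category.assoc, F.ep_comp_eq_zero, comp_zero, uN_map, un_r] at h1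
    simp only [Category.assoc]
    exact h1)
  have hg : (e ≫ (F.I ◁ uN D.un (D.K ⊗ A)) - (g1 + g2 + g3)) ≫
      ep F.ε (D.N ⊗ (D.K ⊗ A)) = 0 := by
    rw [Preadditive.sub_comp, ← hz2, Category.assoc, ep_nat, ← reassoc_of% he]
    simp
  obtain ⟨w, hw⟩ := F.exists_bdry _ hg
  refine ⟨_, e, w ≫ D.ret (D.K ⊗ A), hz1, he, ?_⟩
  have hw2 : (w ≫ D.ret (D.K ⊗ A)) ≫ F.dI (D.K ⊗ A) =
      ((e ≫ (F.I ◁ uN D.un (D.K ⊗ A)) - (g1 + g2 + g3)) ≫ sw F.I D.N (D.K ⊗ A) ≫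
        (D.r ▷ (F.I ⊗ (D.K ⊗ A))))⟦(1 : ℤ)⟧' := by
    rw [Category.assoc, ← dI_retG, UFib.dI, ← unitMap_retG, Functor.map_comp, hw,
      Functor.map_comp]
    simp only [Category.assoc]
  have t0 : (e ≫ (F.I ◁ uN D.un (D.K ⊗ A))) ≫ sw F.I D.N (D.K ⊗ A) ≫
      (D.r ▷ (F.I ⊗ (D.K ⊗ A))) = e ≫ unitMap R (F.I ⊗ (D.K ⊗ A)) := by
    rw [Category.assoc, whisker_uN_sw_assoc, uN_map, un_r]
    rfl
  have t1 : g1 ≫ sw F.I D.N (D.K ⊗ A) ≫ (D.r ▷ (F.I ⊗ (D.K ⊗ A))) =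
      (y ≫ (D.r ▷ A')) ≫ (R ◁ cb) := by
    simp only [g1, Category.assoc, sw_sw_assoc]
    rw [whisker_exchange]
  have t2 : g2 ≫ sw F.I D.N (D.K ⊗ A) ≫ (D.r ▷ (F.I ⊗ (D.K ⊗ A))) =
      c ≫ (F.I ◁ (D.K ◁ (a ≫ (D.r ▷ A)))) ≫ (F.I ◁ sw D.K R A) ≫ sw F.I R (D.K ⊗ A) := by
    simp only [g2, Category.assoc]
    rw [← sw_nat_mid, ← MonoidalCategory.whiskerLeft_comp_assoc F.I (sw D.K D.N A),
      ← sw_nat_mid, MonoidalCategory.whiskerLeft_comp, MonoidalCategory.whiskerLeft_comp,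
      MonoidalCategory.whiskerLeft_comp]
    simp only [Category.assoc]
  have t3 : g3 ≫ sw F.I D.N (D.K ⊗ A) ≫ (D.r ▷ (F.I ⊗ (D.K ⊗ A))) = 0 := by
    simp only [g3, Category.assoc]
    rw [whisker_ep D.K, MonoidalCategory.whiskerLeft_comp_assoc, whisker_ep_assoc,
      F.ep_comp_eq_zero]
    simp only [comp_zero]
  rw [hw2, Preadditive.sub_comp, Preadditive.add_comp, Preadditive.add_comp, t0, t1, t2, t3,
    add_zero, sub_add_eq_sub_sub]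

end NData

end Vale.Agent.P257.H820
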