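import Vale.Agent.P251.S.TowerR

/-!
# P257 (helper820): monoidal preliminaries for the Leibniz rule

In a symmetric monoidal category: the exchange `sw X Y Z : X ⊗ (Y ⊗ Z) ⟶ Y ⊗ (X ⊗ Z)`, the
augmentation `ep ε W : I ⊗ W ⟶ W` and the unit `uN w W : W ⟶ N ⊗ W`.
-/

open CategoryTheory MonoidalCategory Limits Pretriangulated MonObj

universe v u

namespace Vale.Agent.P257.H820

open Vale.Agent.P251.T Vale.Agent.P251.S

section Monoidal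

variable {T : Type u} [Category.{v} T] [MonoidalCategory T]

/-- The augmentation `I ⊗ W ⟶ W`. -/
def ep {I : T} (ε : I ⟶ 𝟙_ T) (W : T) : I ⊗ W ⟶ W := (ε ▷ W) ≫ (λ_ W).hom

/-- The unit `W ⟶ N ⊗ W`. -/
def uN {N : T} (w : 𝟙_ T ⟶ N) (W : T) : W ⟶ N ⊗ W := (λ_ W).inv ≫ (w ▷ W)

@[reassoc]
lemma ep_nat {I : T} (ε : I ⟶ 𝟙_ T) {W W' : T} (f : W ⟶ W') :
    (I ◁ f) ≫ ep ε W' = ep ε W ≫ f := by
  rw [ep, ep, whisker_exchange_assoc, Category.assoc, leftUnitor_naturality]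

@[reassoc]
lemma uN_nat {N : T} (w : 𝟙_ T ⟶ N) {W W' : T} (f : W ⟶ W') :
    f ≫ uN w W' = uN w W ≫ (N ◁ f) := by
  rw [uN, uN, Category.assoc, ← whisker_exchange, leftUnitor_inv_naturality_assoc]

@[reassoc]
lemma uN_map {N N' : T} (w : 𝟙_ T ⟶ N) (φ : N ⟶ N') (W : T) :
    uN w W ≫ (φ ▷ W) = uN (w ≫ φ) W := by
  rw [uN, uN, Category.assoc, comp_whiskerRight]

lemma unitMap_eq_uN (R : T) [MonObj R] (W : T) : unitMap R W = uN η[R] W := rfl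

/-- The action of a binary map `N ⊗ N ⟶ N`. -/
def act {X Y Z : T} (m : X ⊗ Y ⟶ Z) (W : T) : X ⊗ (Y ⊗ W) ⟶ Z ⊗ W := (α_ X Y W).inv ≫ (m ▷ W)

/-- The action of a map `X ⊗ Y ⟶ X' ⊗ Y'`. -/
def b2 {X Y X' Y' : T} (m : X ⊗ Y ⟶ X' ⊗ Y') (W : T) : X ⊗ (Y ⊗ W) ⟶ X' ⊗ (Y' ⊗ W) :=
  (α_ X Y W).inv ≫ (m ▷ W) ≫ (α_ X' Y' W).hom

@[reassoc]
lemma b2_nat {X Y X' Y' : T} (m : X ⊗ Y ⟶ X' ⊗ Y') {W W' : T} (f : W ⟶ W') :
    (X ◁ (Y ◁ f)) ≫ b2 m W' = b2 m W ≫ (X' ◁ (Y' ◁ f)) := by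
  simp only [b2, Category.assoc]
  rw [← associator_naturality_right, ← whisker_exchange_assoc,
    associator_inv_naturality_right_assoc]

@[reassoc]
lemma act_nat {X Y Z : T} (m : X ⊗ Y ⟶ Z) {W W' : T} (f : W ⟶ W') :
    (X ◁ (Y ◁ f)) ≫ act m W' = act m W ≫ (Z ◁ f) := by
  simp only [act, Category.assoc]
  rw [← whisker_exchange, associator_inv_naturality_right_assoc]

lemma b2_comp {X Y X' Y' X'' Y'' : T} (m : X ⊗ Y ⟶ X' ⊗ Y') (m' : X' ⊗ Y' ⟶ X'' ⊗ Y'')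
    (W : T) : b2 (m ≫ m') W = b2 m W ≫ b2 m' W := by
  simp only [b2, Category.assoc, Iso.hom_inv_id_assoc, comp_whiskerRight]

lemma b2_whiskerLeft {X Y Y' : T} (f : Y ⟶ Y') (W : T) :
    b2 (X ◁ f) W = X ◁ (f ▷ W) := by
  simp [b2]

lemma b2_whiskerRight {X Y X' : T} (f : X ⟶ X') (W : T) :
    b2 (f ▷ Y) W = f ▷ (Y ⊗ W) := by
  simp [b2]

lemma b2_act_uN {X Y Z N : T} (m : X ⊗ Y ⟶ Z) (w : 𝟙_ T ⟶ N) (W : T) :
    b2 (m ≫ uN w Z) W = act m W ≫ uN w (Z ⊗ W) := by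
  simp [b2, act, uN]

end Monoidal

section Symmetric

variable {T : Type u} [Category.{v} T] [MonoidalCategory T] [SymmetricCategory T]

/-- The exchange `X ⊗ (Y ⊗ Z) ⟶ Y ⊗ (X ⊗ Z)`. -/
def sw (X Y Z : T) : X ⊗ (Y ⊗ Z) ⟶ Y ⊗ (X ⊗ Z) :=
  (α_ X Y Z).inv ≫ ((β_ X Y).hom ▷ Z) ≫ (α_ Y X Z).hom

lemma b2_braid (X Y W : T) : b2 (β_ X Y).hom W = sw X Y W := rfl

@[reassoc]
lemma sw_nat_left {X X' : T} (f : X ⟶ X') (Y Z : T) :
    (f ▷ (Y ⊗ Z)) ≫ sw X' Y Z = sw X Y Z ≫ (Y ◁ (f ▷ Z)) := by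
  simp only [sw, Category.assoc]
  rw [← associator_naturality_middle, ← comp_whiskerRight_assoc,
    ← BraidedCategory.braiding_naturality_left, comp_whiskerRight_assoc,
    associator_inv_naturality_left_assoc]

@[reassoc]
lemma sw_nat_mid (X : T) {Y Y' : T} (f : Y ⟶ Y') (Z : T) :
    (X ◁ (f ▷ Z)) ≫ sw X Y' Z = sw X Y Z ≫ (f ▷ (X ⊗ Z)) := by
  simp only [sw, Category.assoc]
  rw [← associator_naturality_left, ← comp_whiskerRight_assoc,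
    ← BraidedCategory.braiding_naturality_right, comp_whiskerRight_assoc,
    associator_inv_naturality_middle_assoc]

@[reassoc]
lemma sw_nat_right (X Y : T) {Z Z' : T} (f : Z ⟶ Z') :
    (X ◁ (Y ◁ f)) ≫ sw X Y Z' = sw X Y Z ≫ (Y ◁ (X ◁ f)) :=
  b2_nat _ f

@[reassoc (attr := simp)]
lemma sw_sw (X Y Z : T) : sw X Y Z ≫ sw Y X Z = 𝟙 _ := by
  simp only [sw, Category.assoc, Iso.hom_inv_id_assoc, ← comp_whiskerRight_assoc,
    SymmetricCategory.symmetry]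
  simp

@[reassoc]
lemma whisker_ep (X : T) {I : T} (ε : I ⟶ 𝟙_ T) (W : T) :
    X ◁ ep ε W = sw X I W ≫ ep ε (X ⊗ W) := by
  rw [ep, ep, MonoidalCategory.whiskerLeft_comp]
  have h := sw_nat_mid_assoc X ε W (λ_ (X ⊗ W)).hom
  rw [← h]
  congr 1
  rw [sw, Category.assoc, Category.assoc, ← leftUnitor_whiskerRight, ← comp_whiskerRight,
    braiding_leftUnitor]
  simp

@[reassoc]
lemma whisker_uN_sw (X : T) {N : T} (w : 𝟙_ T ⟶ N) (W : T) :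
    (X ◁ uN w W) ≫ sw X N W = uN w (X ⊗ W) := by
  rw [uN, uN, MonoidalCategory.whiskerLeft_comp, Category.assoc, sw_nat_mid, ← Category.assoc]
  congr 1
  rw [sw, ← cancel_mono (λ_ (X ⊗ W)).hom]
  simp only [Category.assoc, Iso.inv_hom_id]
  rw [← leftUnitor_whiskerRight, ← comp_whiskerRight, braiding_leftUnitor]
  simp

@[reassoc]
lemma uN_sw (X : T) {N : T} (w : 𝟙_ T ⟶ N) (W : T) :
    uN w (X ⊗ W) ≫ sw N X W = X ◁ uN w W := by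
  rw [← whisker_uN_sw, Category.assoc, sw_sw, Category.comp_id]

@[reassoc]
lemma sw_ep (X : T) {I : T} (ε : I ⟶ 𝟙_ T) (W : T) :
    sw X I W ≫ ep ε (X ⊗ W) = X ◁ ep ε W := (whisker_ep X ε W).symm

end Symmetric

end Vale.Agent.P257.H820
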