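import Vale.Agent.P257.H820.IBt

/-!
# P257 (helper820): comparison of the tower of `J` and of the tower of `I`
-/

open CategoryTheory MonoidalCategory Limits Pretriangulated MonObj

universe v u

set_option linter.unusedSectionVars false

namespace Vale.Agent.P257.H820

open Vale.Agent.P251.T Vale.Agent.P251.S

section

variable {C : Type u} [Category.{v} C] [Preadditive C]

/-- Composition with an isomorphism. -/
@[simps] def postE (P : C) {X Y : C} (e : X ≅ Y) : (P ⟶ X) ≃+ (P ⟶ Y) where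
  toFun f := f ≫ e.hom
  invFun f := f ≫ e.inv
  left_inv f := by simp
  right_inv f := by simp
  map_add' f g := by simp

end

variable {T : Type u} [Category.{v} T] [Preadditive T] [HasZeroObject T] [HasShift T ℤ]
  [∀ n : ℤ, (shiftFunctor T n).Additive] [Pretriangulated T] [MonoidalCategory T]
  [SymmetricCategory T] [TensorTriangulated T]

variable {R : T} [MonObj R]

/-- Moving a factor out: `B s (X ⊗ Y) ⟶ X ⊗ B s Y`. -/
def mvB (U : UnitCof R) (X : T) : ∀ (s : ℕ) (Y : T), U.cobar.B s (X ⊗ Y) ⟶ X ⊗ U.cobar.B s Y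
  | 0, _ => 𝟙 _
  | s + 1, Y => U.cobar.Bm s (sw U.J X Y) ≫ mvB U X s (U.J ⊗ Y)

lemma mvB_zero (U : UnitCof R) (X Y : T) : mvB U X 0 Y = 𝟙 _ := rfl

lemma mvB_succ (U : UnitCof R) (X : T) (s : ℕ) (Y : T) :
    mvB U X (s + 1) Y = U.cobar.Bm s (sw U.J X Y) ≫ mvB U X s (U.J ⊗ Y) := rfl

/-- The product of `x : P⟦n⟧ ⟶ X ⊗ Z` and `g : Z⟦k⟧ ⟶ Y`. -/
noncomputable def oc {P X Z Y : T} {n k m : ℤ} (h : n + k = m) (x : P⟦n⟧ ⟶ X ⊗ Z) (g : Z⟦k⟧ ⟶ Y) :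
    P⟦m⟧ ⟶ X ⊗ Y :=
  sh n k m h x ≫ (csh X k Z).inv ≫ (X ◁ g)

lemma oc_comp {P X Z Y Y' : T} {n k m : ℤ} (h : n + k = m) (x : P⟦n⟧ ⟶ X ⊗ Z) (g : Z⟦k⟧ ⟶ Y)
    (f : Y ⟶ Y') : oc h x (g ≫ f) = oc h x g ≫ (X ◁ f) := by
  rw [oc, oc, MonoidalCategory.whiskerLeft_comp, Category.assoc, Category.assoc]

lemma csh_inv_add (X Z : T) (k k' : ℤ) (h : k + 1 = k') :
    (X ◁ (shiftFunctorAdd' T k 1 k' h).inv.app Z) ≫ (csh X k' Z).hom =
      (csh X 1 (Z⟦k⟧)).hom ≫ ((csh X k Z).hom)⟦(1 : ℤ)⟧' ≫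
        (shiftFunctorAdd' T k 1 k' h).inv.app (X ⊗ Z) := by
  subst h
  have h1 : (csh X (k + 1) Z).hom = (X ◁ (shiftFunctorAdd' T k 1 (k + 1) rfl).hom.app Z) ≫
      (csh X 1 (Z⟦k⟧)).hom ≫ ((csh X k Z).hom)⟦(1 : ℤ)⟧' ≫
        (shiftFunctorAdd' T k 1 (k + 1) rfl).inv.app (X ⊗ Z) := by
    have h2 := Functor.commShiftIso_add (tensorLeft X) k 1
    have h3 := congrArg (fun e => e.hom.app Z) h2
    rw [Functor.CommShift.isoAdd_hom_app] at h3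
    rw [shiftFunctorAdd'_eq_shiftFunctorAdd]
    exact h3
  rw [h1, ← MonoidalCategory.whiskerLeft_comp_assoc, Iso.inv_hom_id_app,
    MonoidalCategory.whiskerLeft_id, Category.id_comp]

/-- Products and suspension. -/
lemma oc_sh {P X Z Y : T} {n k m k' m' : ℤ} (h : n + k = m) (hk : k + 1 = k') (hm : m + 1 = m')
    (x : P⟦n⟧ ⟶ X ⊗ Z) (g : Z⟦k⟧ ⟶ Y) :
    oc (show n + k' = m' by rw [← hk, ← hm, ← h]; ring) x (sh k 1 k' hk g) ≫ (csh X 1 Y).hom =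
      sh m 1 m' hm (oc h x g) := by
  have h1 := csh_inv_add X Z k k' hk
  have h4 : (csh X k' Z).inv ≫ (X ◁ (shiftFunctorAdd' T k 1 k' hk).hom.app Z) ≫
      (csh X 1 (Z⟦k⟧)).hom = (shiftFunctorAdd' T k 1 k' hk).hom.app (X ⊗ Z) ≫
        ((csh X k Z).inv)⟦(1 : ℤ)⟧' := by
    rw [Iso.inv_comp_eq, ← cancel_epi (X ◁ (shiftFunctorAdd' T k 1 k' hk).inv.app Z),
      ← MonoidalCategory.whiskerLeft_comp_assoc, Iso.inv_hom_id_app,
      MonoidalCategory.whiskerLeft_id, Category.id_comp, reassoc_of% h1,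
      Iso.inv_hom_id_app_assoc, ← Functor.map_comp, Iso.hom_inv_id,
      CategoryTheory.Functor.map_id, Category.comp_id]
  have h5 : sh n k' m' (by rw [← hk, ← hm, ← h]; ring) x ≫
      (shiftFunctorAdd' T k 1 k' hk).hom.app (X ⊗ Z) = sh m 1 m' hm (sh n k m h x) := by
    have e1 := shiftFunctorAdd'_assoc_hom_app (C := T) n k 1 m k' m' h hk
      (by rw [h, hm]) P
    simp only [sh, AddEquiv.coe_mk, Equiv.coe_fn_mk, Functor.map_comp, Category.assoc]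
    have e2 : x⟦k'⟧' ≫ (shiftFunctorAdd' T k 1 k' hk).hom.app (X ⊗ Z) =
        (shiftFunctorAdd' T k 1 k' hk).hom.app (P⟦n⟧) ≫ (x⟦k⟧')⟦(1 : ℤ)⟧' :=
      (shiftFunctorAdd' T k 1 k' hk).hom.naturality x
    rw [e2, ← reassoc_of% e1]
  rw [oc, oc, sh_comp, Functor.map_comp, ← h5, Category.assoc]
  have h6 := csh_nat X 1 g
  simp only [sh, AddEquiv.coe_mk, Equiv.coe_fn_mk, MonoidalCategory.whiskerLeft_comp,
    Category.assoc] at *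
  rw [csh_nat]
  congr 2
  rw [reassoc_of% h4]

namespace Link

variable {U : UnitCof R} {F : UFib R} (L : Link U F)

/-- `IB s (J ⊗ A) ≅ (IB (s + 1) A)⟦1⟧`. -/
noncomputable def ψ (s : ℕ) (A : T) : IB F.I s (U.J ⊗ A) ≅ (IB F.I (s + 1) A)⟦(1 : ℤ)⟧ :=
  IBmI F.I s (L.χ A) ≪≫ csI F.I s (F.I ⊗ A)

lemma ψ_hom (s : ℕ) (A : T) :
    (L.ψ s A).hom = IBm F.I s (L.χ A).hom ≫ (csI F.I s (F.I ⊗ A)).hom := rfl

lemma ψ_nat (s : ℕ) {A A' : T} (f : A ⟶ A') :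
    IBm F.I s (U.J ◁ f) ≫ (L.ψ s A').hom = (L.ψ s A).hom ≫ (IBm F.I (s + 1) f)⟦(1 : ℤ)⟧' := by
  rw [ψ_hom, ψ_hom, Category.assoc, IBm_succ, ← csI_nat, ← IBm_comp_assoc, χ_nat,
    IBm_comp_assoc]

lemma IBc_ψ (s : ℕ) (A : T) : IBc F.ε s (U.J ⊗ A) ≫ (L.ψ s A).hom =
    (L.ψ (s + 1) A).hom ≫ (IBc F.ε (s + 1) A)⟦(1 : ℤ)⟧' := by
  rw [ψ_hom, ψ_hom, ← IBc_nat_assoc, IBc_csI, Category.assoc]
  rfl

lemma sw_χ (X W : T) : sw U.J X W ≫ (X ◁ (L.χ W).hom) ≫ (csh X 1 (F.I ⊗ W)).hom =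
    (L.χ (X ⊗ W)).hom ≫ (sw F.I X W)⟦(1 : ℤ)⟧' := by
  have h0 := csh_associator X W 1 F.I
  have h1 : sw (F.I⟦(1 : ℤ)⟧) X W ≫ (X ◁ (β_ (F.I⟦(1 : ℤ)⟧) W).hom) ≫
      (α_ X W (F.I⟦(1 : ℤ)⟧)).inv = (β_ (F.I⟦(1 : ℤ)⟧) (X ⊗ W)).hom := by
    rw [sw, BraidedCategory.braiding_tensor_right_hom]
    simp only [Category.assoc]
  have h2 : (α_ X W F.I).hom ≫ (X ◁ (β_ W F.I).hom) = (β_ (X ⊗ W) F.I).hom ≫ sw F.I X W := by
    rw [sw, BraidedCategory.braiding_tensor_left_hom]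
    simp only [Category.assoc, Iso.hom_inv_id_assoc, ← comp_whiskerRight_assoc,
      SymmetricCategory.symmetry]
    simp
  have h3 : (X ◁ (csh W 1 F.I).hom) ≫ (csh X 1 (W ⊗ F.I)).hom =
      (α_ X W (F.I⟦(1 : ℤ)⟧)).inv ≫ (csh (X ⊗ W) 1 F.I).hom ≫ ((α_ X W F.I).hom)⟦(1 : ℤ)⟧' := by
    rw [h0, Iso.inv_hom_id_assoc]
  rw [χ_hom, χ_hom, shR_hom, shR_hom]
  simp only [MonoidalCategory.whiskerLeft_comp, Category.assoc]
  rw [csh_nat, ← sw_nat_left_assoc, reassoc_of% h3, reassoc_of% h1, ← Functor.map_comp, h2,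
    Functor.map_comp]

lemma mv_ψ (X : T) (s : ℕ) (W : T) : IBm F.I s (sw U.J X W) ≫ IBmv F.I X s (U.J ⊗ W) ≫
    (X ◁ (L.ψ s W).hom) ≫ (csh X 1 _).hom =
      (L.ψ s (X ⊗ W)).hom ≫ (IBmv F.I X (s + 1) W)⟦(1 : ℤ)⟧' := by
  have h1 : (IBmv F.I X (s + 1) W)⟦(1 : ℤ)⟧' =
      (IBm F.I s (sw F.I X W))⟦(1 : ℤ)⟧' ≫ (IBmv F.I X s (F.I ⊗ W))⟦(1 : ℤ)⟧' :=
    Functor.map_comp _ _ _
  rw [ψ_hom, ψ_hom, MonoidalCategory.whiskerLeft_comp, Category.assoc, ← IBmv_nat_assoc,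
    IBmv_csI, h1, Category.assoc, ← csI_nat_assoc, ← IBm_comp_assoc, ← IBm_comp_assoc,
    ← IBm_comp_assoc, Category.assoc, sw_χ]

variable (P : T)

/-- The comparison of the `J`-tower with the `I`-tower. -/
noncomputable def ΦB : ∀ (s : ℕ) (A : T) (t t' : ℤ), t + (s : ℤ) = t' →
    ((P⟦t'⟧ ⟶ U.cobar.B s A) ≃+ (P⟦t⟧ ⟶ IB F.I s A))
  | 0, A, _, _, h => cst P A (by rw [← h, Nat.cast_zero, add_zero])
  | s + 1, A, t, t', h => (ΦB s (U.J ⊗ A) (t + 1) t' (by rw [← h]; push_cast; ring)).trans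
      ((postE _ (L.ψ s A)).trans (sh t 1 (t + 1) rfl).symm)

/-- The comparison of the `E₁`-terms. -/
noncomputable def ΦR : ∀ (s : ℕ) (A : T) (t t' : ℤ), t + (s : ℤ) = t' →
    ((P⟦t'⟧ ⟶ R ⊗ U.cobar.B s A) ≃+ (P⟦t⟧ ⟶ R ⊗ IB F.I s A))
  | 0, A, _, _, h => cst P _ (by rw [← h, Nat.cast_zero, add_zero])
  | s + 1, A, t, t', h => (ΦR s (U.J ⊗ A) (t + 1) t' (by rw [← h]; push_cast; ring)).trans
      ((postE _ (whiskerLeftIso R (L.ψ s A) ≪≫ csh R 1 _)).trans (sh t 1 (t + 1) rfl).symm)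

variable {P}

lemma ΦB_zero (A : T) (t t' : ℤ) (h : t + ((0 : ℕ) : ℤ) = t') (g : P⟦t'⟧ ⟶ U.cobar.B 0 A) :
    L.ΦB P 0 A t t' h g = cst P A (by rw [← h, Nat.cast_zero, add_zero]) g := rfl

lemma ΦB_succ (s : ℕ) (A : T) (t t' : ℤ) (h : t + ((s + 1 : ℕ) : ℤ) = t')
    (g : P⟦t'⟧ ⟶ U.cobar.B (s + 1) A) :
    L.ΦB P (s + 1) A t t' h g = (sh t 1 (t + 1) rfl).symm
      (L.ΦB P s (U.J ⊗ A) (t + 1) t' (by rw [← h]; push_cast; ring) g ≫ (L.ψ s A).hom) := rfl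

lemma ΦR_zero (A : T) (t t' : ℤ) (h : t + ((0 : ℕ) : ℤ) = t')
    (g : P⟦t'⟧ ⟶ R ⊗ U.cobar.B 0 A) :
    L.ΦR P 0 A t t' h g = cst P (R ⊗ A) (by rw [← h, Nat.cast_zero, add_zero]) g := rfl

lemma ΦR_succ (s : ℕ) (A : T) (t t' : ℤ) (h : t + ((s + 1 : ℕ) : ℤ) = t')
    (g : P⟦t'⟧ ⟶ R ⊗ U.cobar.B (s + 1) A) :
    L.ΦR P (s + 1) A t t' h g = (sh t 1 (t + 1) rfl).symm
      (L.ΦR P s (U.J ⊗ A) (t + 1) t' (by rw [← h]; push_cast; ring) g ≫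
        (R ◁ (L.ψ s A).hom) ≫ (csh R 1 _).hom) := rfl

/-- Naturality. -/
lemma ΦB_nat (s : ℕ) {A A' : T} (t t' : ℤ) (h : t + (s : ℤ) = t') (g : P⟦t'⟧ ⟶ U.cobar.B s A)
    (f : A ⟶ A') : L.ΦB P s A' t t' h (g ≫ U.cobar.Bm s f) = L.ΦB P s A t t' h g ≫ IBm F.I s f := by
  induction s generalizing A A' t t' with
  | zero => exact cst_comp _ _ _
  | succ s ih =>
    rw [ΦB_succ, ΦB_succ, sh_symm_comp, Category.assoc, ← ψ_nat, ← Category.assoc]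
    congr 2
    exact ih (A := U.J ⊗ A) (A' := U.J ⊗ A') (t + 1) t' _ g (U.J ◁ f)

/-- Compatibility with the maps of the towers. -/
lemma ΦB_i (s : ℕ) (A : T) (t t' t'' : ℤ) (h : t + (s : ℤ) = t') (h' : t' + 1 = t'')
    (h'' : t + ((s + 1 : ℕ) : ℤ) = t'') (g : P⟦t''⟧ ⟶ U.cobar.B (s + 1) A) :
    L.ΦB P s A t t' h ((sh t' 1 t'' h').symm (g ≫ U.bd s A)) =
      L.ΦB P (s + 1) A t t'' h'' g ≫ IBc F.ε s A := by
  induction s generalizing A t t' t'' with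
  | zero =>
    obtain rfl : t' = t := by rw [← h]; simp
    obtain rfl : t'' = t' + 1 := h'.symm
    have h1 : g ≫ U.bd 0 A = (g ≫ (L.ψ 0 A).hom) ≫ (IBc F.ε 0 A)⟦(1 : ℤ)⟧' := by
      rw [ψ_hom, csI_zero_hom, IBm_zero, Category.comp_id, IBc_zero, Category.assoc, ← bdry_eq]
      rfl
    rw [ΦB_zero, cst_rfl, ΦB_succ, h1, ΦB_zero, cst_rfl]
    exact (sh_symm_comp _ _ _ _ _ _).symm
  | succ s ih =>
    have h1 := ih (U.J ⊗ A) (t + 1) t' t'' (by rw [← h]; push_cast; ring) h'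
      (by rw [← h'']; push_cast; ring) g
    rw [ΦB_succ L (s + 1) A, ΦB_succ L s A, sh_symm_comp, Category.assoc, ← IBc_ψ,
      ← Category.assoc]
    exact congrArg (fun x => (sh t 1 (t + 1) rfl).symm (x ≫ (L.ψ s A).hom)) h1

/-- Compatibility with the units. -/
lemma ΦR_un (s : ℕ) (A : T) (t t' : ℤ) (h : t + (s : ℤ) = t') (g : P⟦t'⟧ ⟶ U.cobar.B s A) :
    L.ΦR P s A t t' h (g ≫ unitMap R _) = L.ΦB P s A t t' h g ≫ unitMap R _ := by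
  induction s generalizing A t t' with
  | zero => exact cst_comp _ _ _
  | succ s ih =>
    rw [ΦR_succ, ΦB_succ, sh_symm_comp]
    congr 1
    have h1 := ih (U.J ⊗ A) (t + 1) t' (by rw [← h]; push_cast; ring) g
    refine (congrArg (fun x => x ≫ (R ◁ (L.ψ s A).hom) ≫ (csh R 1 _).hom) h1).trans ?_
    simp only [Category.assoc]
    rw [← unitMap_nat_assoc, unitMap_csh]

/-- Compatibility with moving out a factor. -/
lemma ΦR_mv (s : ℕ) (A : T) (t t' : ℤ) (h : t + (s : ℤ) = t')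
    (g : P⟦t'⟧ ⟶ U.cobar.B s (R ⊗ A)) :
    L.ΦR P s A t t' h (g ≫ mvB U R s A) = L.ΦB P s (R ⊗ A) t t' h g ≫ IBmv F.I R s A := by
  induction s generalizing A t t' with
  | zero => exact cst_comp _ _ _
  | succ s ih =>
    rw [ΦR_succ, ΦB_succ, sh_symm_comp, Category.assoc, ← mv_ψ, ← Category.assoc]
    congr 1
    have h1 := ih (U.J ⊗ A) (t + 1) t' (by rw [← h]; push_cast; ring)
      (g ≫ U.cobar.Bm s (sw U.J R A))
    rw [ΦB_nat] at h1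
    simp only [Category.assoc] at h1 ⊢
    refine (congrArg (fun x => x ≫ (R ◁ (L.ψ s A).hom) ≫ (csh R 1 _).hom) h1).trans ?_
    simp only [Category.assoc]

/-- Compatibility with products. -/
lemma ΦR_oc {Z : T} (s : ℕ) (A : T) {n t t' m m' : ℤ} (h : t + (s : ℤ) = t') (h1 : n + t = m)
    (h2 : m + (s : ℤ) = m') (x : P⟦n⟧ ⟶ R ⊗ Z) (g : Z⟦t'⟧ ⟶ U.cobar.B s A) :
    L.ΦR P s A m m' h2 (oc (show n + t' = m' by rw [← h2, ← h1, ← h]; ring) x g) =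
      oc h1 x (L.ΦB Z s A t t' h g) := by
  induction s generalizing A t t' m m' with
  | zero =>
    obtain rfl : t' = t := by rw [← h]; simp
    obtain rfl : m' = m := by rw [← h2]; simp
    rfl
  | succ s ih =>
    rw [ΦR_succ, ΦB_succ]
    have h3 := ih (U.J ⊗ A) (t := t + 1) (t' := t') (m := m + 1) (m' := m')
      (by rw [← h]; push_cast; ring) (by rw [← h1]; ring) (by rw [← h2]; push_cast; ring) g
    rw [AddEquiv.symm_apply_eq, ← oc_sh h1 rfl rfl, AddEquiv.apply_symm_apply, oc_comp,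
      Category.assoc]
    exact congrArg (fun x => x ≫ (R ◁ (L.ψ s A).hom) ≫ (csh R 1 _).hom) h3

end Link

end Vale.Agent.P257.H820
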