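import Vale.Agent.P257.H820.TowV
import Vale.Agent.P251.S.CobarE1
import Vale.Agent.P251.S.ModP

/-!
# P257 (helper820): the tower `(tow 𝟙) ⊗ V` and the tower of `V`
-/

open CategoryTheory MonoidalCategory Limits Pretriangulated MonObj

universe v u

set_option linter.unusedSectionVars false

namespace Vale.Agent.P257.H820

open Vale.Agent.P251.T Vale.Agent.P251.S

/-! ### Morphisms of towers and the maps of the couples -/

section Mor

variable {D : Type u} [Category.{v} D] [Preadditive D] [HasZeroObject D] [HasShift D ℤ]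
  [∀ n : ℤ, (shiftFunctor D n).Additive] [Pretriangulated D]
  {X Y : Tow D} (φ : Tow.Mor X Y) (P : D)

lemma proj_fD (n : ℤ) {b a : ℕ} (h : b ≤ a) (y : (X.couple P).D a n) :
    (Y.couple P).proj n h (φ.fD P a n y) = φ.fD P b n ((X.couple P).proj n h y) := by
  induction a, h using Nat.le_induction with
  | base => rw [Couple.proj_self, Couple.proj_self]
  | succ a h ih => rw [Couple.proj_succ _ n h, Couple.proj_succ _ n h, Tow.Mor.i_fD, ih]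

lemma fD_bijective (s : ℕ) (n : ℤ) [IsIso (φ.f s)] : Function.Bijective (φ.fD P s n) := by
  constructor
  · intro x y hxy
    have h : ∀ x y : P⟦n + (s : ℤ)⟧ ⟶ X.J s, x ≫ φ.f s = y ≫ φ.f s → x = y := by
      intro x y hxy
      rwa [cancel_mono] at hxy
    exact h x y hxy
  · intro y
    have h : ∀ y : P⟦n + (s : ℤ)⟧ ⟶ Y.J s, ∃ x : P⟦n + (s : ℤ)⟧ ⟶ X.J s, x ≫ φ.f s = y :=
      fun y => ⟨y ≫ inv (φ.f s), by simp⟩
    exact h y

lemma fE_injective (s : ℕ) (n : ℤ) [IsIso (φ.g s)] : Function.Injective (φ.fE P s n) := by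
  intro x y hxy
  have h : ∀ x y : P⟦n + (s : ℤ)⟧ ⟶ X.W s, x ≫ φ.g s = y ≫ φ.g s → x = y := by
    intro x y hxy
    rwa [cancel_mono] at hxy
  exact h x y hxy

end Mor

variable {T : Type u} [Category.{v} T] [Preadditive T] [HasZeroObject T] [HasShift T ℤ]
  [∀ n : ℤ, (shiftFunctor T n).Additive] [Pretriangulated T] [MonoidalCategory T]
  [SymmetricCategory T] [TensorTriangulated T]

variable {R : T} [MonObj R] (U : UnitCof R) (V : T)

/-- The couple of the tower of `𝟙`, tensored with `V`. -/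
noncomputable abbrev CT (U : UnitCof R) (V : T) : Couple.{v, v} :=
  ((U.tow (𝟙_ T)).map (tensorRight V)).couple (𝟙_ T)

/-- The morphism of towers `(tow 𝟙) ⊗ V ⟶ tow V`. -/
noncomputable def TV : Tow.Mor ((U.tow (𝟙_ T)).map (tensorRight V)) (U.tow V) where
  f s := (bV U V s (𝟙_ T)).hom ≫ U.cobar.Bm s (λ_ V).hom
  g s := (wV U V s (𝟙_ T)).hom ≫ (R ◁ U.cobar.Bm s (λ_ V).hom)
  comm_a s := by
    change (unitMap R (U.cobar.B s (𝟙_ T)) ▷ V) ≫ (wV U V s (𝟙_ T)).hom ≫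
      (R ◁ U.cobar.Bm s (λ_ V).hom) =
      ((bV U V s (𝟙_ T)).hom ≫ U.cobar.Bm s (λ_ V).hom) ≫ unitMap R _
    rw [← Category.assoc, wV_a, Category.assoc, Category.assoc, unitMap_nat]
  comm_b s := by
    change (U.cobar.k s (𝟙_ T) ▷ V) ≫ (bV U V (s + 1) (𝟙_ T)).hom ≫
      U.cobar.Bm (s + 1) (λ_ V).hom =
      ((wV U V s (𝟙_ T)).hom ≫ (R ◁ U.cobar.Bm s (λ_ V).hom)) ≫ U.cobar.k s V
    have h := U.cobar.k_naturality s (λ_ V).hom
    rw [← Category.assoc, wV_b, Category.assoc, Category.assoc]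
    exact congrArg _ h.symm
  comm_c s := by
    change ((U.bd s (𝟙_ T) ▷ V) ≫ ((tensorRight V).commShiftIso (1 : ℤ)).hom.app _) ≫
      ((bV U V s (𝟙_ T)).hom ≫ U.cobar.Bm s (λ_ V).hom)⟦(1 : ℤ)⟧' =
      ((bV U V (s + 1) (𝟙_ T)).hom ≫ U.cobar.Bm (s + 1) (λ_ V).hom) ≫ U.bd s V
    have h := wV_c U V s (𝟙_ T)
    have h1 := U.bd_naturality s (λ_ V).hom
    rw [tensorRight_commShiftIso_one, Functor.map_comp, ← Category.assoc]
    refine (congrArg (fun x => x ≫ (U.cobar.Bm s (λ_ V).hom)⟦(1 : ℤ)⟧') h).trans ?_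
    rw [Category.assoc, Category.assoc, ← h1]

lemma TV_f (s : ℕ) : (TV U V).f s = (bV U V s (𝟙_ T)).hom ≫ U.cobar.Bm s (λ_ V).hom := rfl

lemma TV_g (s : ℕ) :
    (TV U V).g s = (wV U V s (𝟙_ T)).hom ≫ (R ◁ U.cobar.Bm s (λ_ V).hom) := rfl

/-- The image of an isomorphism under `B s`. -/
def BmI (s : ℕ) {Y Y' : T} (e : Y ≅ Y') : U.cobar.B s Y ≅ U.cobar.B s Y' where
  hom := U.cobar.Bm s e.hom
  inv := U.cobar.Bm s e.inv
  hom_inv_id := by rw [← CobarData.Bm_comp, Iso.hom_inv_id, CobarData.Bm_id]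
  inv_hom_id := by rw [← CobarData.Bm_comp, Iso.inv_hom_id, CobarData.Bm_id]

instance isIso_TV_f (s : ℕ) : IsIso ((TV U V).f s) := by
  exact (bV U V s (𝟙_ T) ≪≫ BmI U s (λ_ V)).isIso_hom

instance isIso_TV_g (s : ℕ) : IsIso ((TV U V).g s) := by
  exact (wV U V s (𝟙_ T) ≪≫ whiskerLeftIso R (BmI U s (λ_ V))).isIso_hom

/-- The unit of `V` on the cobar complex. -/
lemma redC_nV_aux {V : T} (i : 𝟙_ T ⟶ V) (s : ℕ) (Y : T) :
    (redC i).app (U.cobar.Q s Y) ≫ (nV U V s Y).hom = U.cobar.Qm s ((redC i).app Y) := by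
  induction s generalizing Y with
  | zero => exact Category.comp_id _
  | succ s ih =>
    rw [nV_succ]
    have h := ih (R ⊗ Y)
    refine ((reassoc_of% h) _).trans ?_
    rw [CobarData.Qm_succ, ← CobarData.Qm_comp]
    congr 1
    rw [redC_app, redC_app]
    change ((ρ_ (R ⊗ Y)).inv ≫ (R ⊗ Y) ◁ i) ≫ (α_ R Y V).hom = R ◁ ((ρ_ Y).inv ≫ Y ◁ i)
    simp

lemma redC_nV {V : T} (i : 𝟙_ T ⟶ V) (s : ℕ) :
    (redC i).app (U.cobar.Q s (𝟙_ T)) ≫ (nV U V s (𝟙_ T)).hom ≫ U.cobar.Qm s (λ_ V).hom =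
      U.cobar.Qm s i := by
  rw [← Category.assoc, redC_nV_aux, ← CobarData.Qm_comp]
  congr 1
  rw [redC_app]
  change ((ρ_ (𝟙_ T)).inv ≫ 𝟙_ T ◁ i) ≫ (λ_ V).hom = i
  rw [Category.assoc, leftUnitor_naturality, ← unitors_inv_equal, Iso.inv_hom_id_assoc]

/-- The image of a cochain. -/
lemma eE_fE_qE {s : ℕ} {n t : ℤ} (h : n + (s : ℤ) = t)
    (x : (𝟙_ T)⟦t⟧ ⟶ (tensorRight V).obj (U.cobar.Q (s + 1) (𝟙_ T))) :
    (U.tow V).eE (𝟙_ T) h ((TV U V).fE (𝟙_ T) s n (U.qE (𝟙_ T) (tensorRight V) (𝟙_ T) h x)) =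
      x ≫ ((nV U V (s + 1) (𝟙_ T)).hom ≫ U.cobar.Qm (s + 1) (λ_ V).hom) ≫ U.cobar.q s V := by
  rw [Tow.Mor.eE_fE, TV_g]
  have h1 := U.eT_qE (𝟙_ T) (tensorRight V) (𝟙_ T) h x
  refine (congrArg (fun z => z ≫ (wV U V s (𝟙_ T)).hom ≫ (R ◁ U.cobar.Bm s (λ_ V).hom))
    h1).trans ?_
  have h2 := q_wV U V s (𝟙_ T)
  have h3 := U.cobar.q_naturality s (λ_ V).hom
  rw [Category.assoc, Category.assoc]
  refine congrArg (fun z => x ≫ z) ?_
  refine ((reassoc_of% h2) _).trans ?_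
  exact congrArg _ h3.symm

lemma eE_fE_qE_redC {V : T} (i : 𝟙_ T ⟶ V) {s : ℕ} {n t : ℤ} (h : n + (s : ℤ) = t)
    (x : (𝟙_ T)⟦t⟧ ⟶ U.cobar.Q (s + 1) (𝟙_ T)) :
    (U.tow V).eE (𝟙_ T) h ((TV U V).fE (𝟙_ T) s n (U.qE (𝟙_ T) (tensorRight V) (𝟙_ T) h
      (x ≫ (redC i).app (U.cobar.Q (s + 1) (𝟙_ T))))) =
      x ≫ U.cobar.Qm (s + 1) i ≫ U.cobar.q s V := by
  rw [eE_fE_qE, Category.assoc]
  congr 1
  rw [← Category.assoc, redC_nV]

lemma nV_lam (s : ℕ) (Y : T) : (U.cobar.lam s Y ▷ V) ≫ (nV U V (s + 1) Y).hom =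
    (nV U V s Y).hom ≫ U.cobar.lam s (Y ⊗ V) := by
  rw [nV_succ]
  have h := nV_nat U V s (unitMap R Y)
  refine ((reassoc_of% h) _).trans ?_
  rw [← CobarData.Qm_comp, unitMap_whiskerRight_assoc']
  rfl

/-- The differentials. -/
@[reassoc]
lemma nV_d (s : ℕ) (Y : T) : (U.cobar.d s Y ▷ V) ≫ (nV U V (s + 1) Y).hom =
    (nV U V s Y).hom ≫ U.cobar.d s (Y ⊗ V) := by
  induction s generalizing Y with
  | zero => exact nV_lam U V 0 Y
  | succ s ih =>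
    have h1 : (U.cobar.d (s + 1) Y ▷ V) = (U.cobar.d s (R ⊗ Y) ▷ V) +
        (-1 : ℤ) ^ (s + 1) • (U.cobar.lam (s + 1) Y ▷ V) :=
      ((tensorRight V).map_add (f := U.cobar.d s (R ⊗ Y))
        (g := (-1 : ℤ) ^ (s + 1) • U.cobar.lam (s + 1) Y)).trans
        (congrArg (fun z => (U.cobar.d s (R ⊗ Y) ▷ V) + z)
          (Functor.map_zsmul (tensorRight V) (f := U.cobar.lam (s + 1) Y)))
    have h4 : (U.cobar.d s (R ⊗ Y) ▷ V) ≫ (nV U V (s + 1 + 1) Y).hom =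
        (nV U V (s + 1) Y).hom ≫ U.cobar.d s (R ⊗ (Y ⊗ V)) := by
      have h2 := ih (R ⊗ Y)
      have h3 := U.cobar.d_naturality s (α_ R Y V).hom
      have h5 : (nV U V (s + 1 + 1) Y).hom =
        (nV U V (s + 1) (R ⊗ Y)).hom ≫ U.cobar.Qm (s + 1) (α_ R Y V).hom := rfl
      rw [h5, nV_succ U V s Y, Category.assoc]
      refine ((reassoc_of% h2) _).trans ?_
      exact congrArg _ h3.symm
    rw [h1, Preadditive.add_comp, Preadditive.zsmul_comp, nV_lam, CobarData.d_succ,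
      Preadditive.comp_add, Preadditive.comp_zsmul, h4]

end Vale.Agent.P257.H820
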