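import Vale.Agent.P257.H820.LeibJ
import Vale.Agent.P257.H820.TowIso

/-!
# P257 (helper820): the tower of `J ⊗ V` and the tower of `V`
-/

open CategoryTheory MonoidalCategory Limits Pretriangulated MonObj

universe v u

set_option linter.unusedSectionVars false

namespace Vale.Agent.P257.H820

open Vale.Agent.P251.T Vale.Agent.P251.S

variable {T : Type u} [Category.{v} T] [Preadditive T] [HasZeroObject T] [HasShift T ℤ]
  [∀ n : ℤ, (shiftFunctor T n).Additive] [Pretriangulated T] [MonoidalCategory T]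
  [SymmetricCategory T] [TensorTriangulated T]

variable {R : T} [MonObj R] (U : UnitCof R) (V : T)

/-- The index shift. -/
def σD (s : ℕ) (m n : ℤ) (h : n = m + 1) :
    (CA U V).D (s + 1) m ≃+ (CA U (U.J ⊗ V)).D s n :=
  cst (𝟙_ T) (U.cobar.B (s + 1) V)
    (show m + ((s + 1 : ℕ) : ℤ) = n + (s : ℤ) by rw [h]; push_cast; ring)

lemma eD_σD {s : ℕ} {m n t : ℤ} (h : n = m + 1) (h1 : m + ((s + 1 : ℕ) : ℤ) = t)
    (h2 : n + (s : ℤ) = t) (y : (CA U V).D (s + 1) m) :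
    (U.tow (U.J ⊗ V)).eD (𝟙_ T) h2 (σD U V s m n h y) = (U.tow V).eD (𝟙_ T) h1 y :=
  cst_cst _ h2 (_ : (𝟙_ T)⟦m + ((s + 1 : ℕ) : ℤ)⟧ ⟶ U.cobar.B (s + 1) V)

lemma σD_i (s : ℕ) (m n : ℤ) (h : n = m + 1) (y : (CA U V).D (s + 1 + 1) m) :
    (CA U (U.J ⊗ V)).i s n (σD U V (s + 1) m n h y) = σD U V s m n h ((CA U V).i (s + 1) m y) := by
  apply ((U.tow (U.J ⊗ V)).eD (𝟙_ T) (rfl : n + (s : ℤ) = n + (s : ℤ))).injective
  have h3 : n + (s : ℤ) + 1 = n + ((s + 1 : ℕ) : ℤ) := by push_cast; ring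
  apply (sh (n + (s : ℤ)) 1 (n + ((s + 1 : ℕ) : ℤ)) h3).injective
  have h1 : m + ((s + 1 : ℕ) : ℤ) = n + (s : ℤ) := by rw [h]; push_cast; ring
  have h2 : m + ((s + 1 + 1 : ℕ) : ℤ) = n + ((s + 1 : ℕ) : ℤ) := by rw [h]; push_cast; ring
  rw [eD_σD U V h h1 rfl]
  refine ((U.tow (U.J ⊗ V)).eD_i (𝟙_ T) rfl rfl h3 _).trans ?_
  refine Eq.trans ?_ ((U.tow V).eD_i (𝟙_ T) h1 h2 h3 _).symm
  rw [eD_σD U V h h2 rfl]
  rfl

lemma σD_proj (m n : ℤ) (h : n = m + 1) {b a : ℕ} (hb : b ≤ a) (hb' : b + 1 ≤ a + 1)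
    (y : (CA U V).D (a + 1) m) :
    (CA U (U.J ⊗ V)).proj n hb (σD U V a m n h y) =
      σD U V b m n h ((CA U V).proj m hb' y) := by
  induction a, hb using Nat.le_induction with
  | base => rw [Couple.proj_self, Couple.proj_self]
  | succ a hb ih =>
    rw [Couple.proj_succ _ n hb, Couple.proj_succ _ m (Nat.succ_le_succ hb), σD_i,
      ih (Nat.succ_le_succ hb)]

lemma σD_k (s : ℕ) {m n m' n' t : ℤ} (h : n = m + 1) (h' : m' = m + 1) (h'' : n' = n + 1)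
    (h1 : m' + ((s + 1 : ℕ) : ℤ) = t) (h2 : n' + (s : ℤ) = t)
    (x : (𝟙_ T)⟦t⟧ ⟶ R ⊗ U.cobar.B (s + 1) V) :
    σD U V (s + 1) m n h ((CA U V).k (s + 1) m' m h' (((U.tow V).eE (𝟙_ T) h1).symm x)) =
      (CA U (U.J ⊗ V)).k s n' n h'' (((U.tow (U.J ⊗ V)).eE (𝟙_ T) h2).symm x) := by
  have h3 : m + ((s + 1 + 1 : ℕ) : ℤ) = t := by rw [← h1, h']; push_cast; ring
  have h4 : n + ((s + 1 : ℕ) : ℤ) = t := by rw [← h2, h'']; push_cast; ring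
  apply ((U.tow (U.J ⊗ V)).eD (𝟙_ T) h4).injective
  rw [eD_σD U V h h3 h4]
  refine ((U.tow V).eD_k (𝟙_ T) h' h1 h3 _).trans ?_
  refine Eq.trans ?_ ((U.tow (U.J ⊗ V)).eD_k (𝟙_ T) h'' h2 h4 _).symm
  have e1 := AddEquiv.apply_symm_apply ((U.tow V).eE (𝟙_ T) h1) x
  have e2 := AddEquiv.apply_symm_apply ((U.tow (U.J ⊗ V)).eE (𝟙_ T) h2) x
  refine (congrArg (fun z => z ≫ (U.tow V).b (s + 1)) e1).trans ?_
  exact (congrArg (fun z => z ≫ (U.tow (U.J ⊗ V)).b s) e2).symm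

end Vale.Agent.P257.H820
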