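import Vale.Agent.P257.H820.Push

/-!
# P257 (helper820): `B s Y ⊗ V ≅ B s (Y ⊗ V)`
-/

open CategoryTheory MonoidalCategory Limits Pretriangulated MonObj

universe v u

set_option linter.unusedSectionVars false

namespace Vale.Agent.P257.H820

open Vale.Agent.P251.T Vale.Agent.P251.S

variable {T : Type u} [Category.{v} T] [Preadditive T] [HasZeroObject T] [HasShift T ℤ]
  [∀ n : ℤ, (shiftFunctor T n).Additive] [Pretriangulated T] [MonoidalCategory T]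
  [SymmetricCategory T] [TensorTriangulated T]

/-- The shift isomorphism of `- ⊗ V`. -/
lemma tensorRight_commShiftIso_one (Y V : T) :
    ((tensorRight V).commShiftIso (1 : ℤ)).hom.app Y = (shR Y V).hom := by
  have h := NatTrans.shift_app_comm (BraidedCategory.tensorLeftIsoTensorRight V).hom (1 : ℤ) Y
  have h1 : (csh V 1 Y).hom ≫ ((β_ V Y).hom)⟦(1 : ℤ)⟧' =
      (β_ V (Y⟦(1 : ℤ)⟧)).hom ≫ ((tensorRight V).commShiftIso (1 : ℤ)).hom.app Y := h
  rw [shR_hom, h1, SymmetricCategory.symmetry_assoc]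

@[reassoc]
lemma sOne_shR (Y V : T) : (sOne Y ▷ V) ≫ (shR Y V).hom =
    (α_ ((𝟙_ T)⟦(1 : ℤ)⟧) Y V).hom ≫ sOne (Y ⊗ V) := by
  have h1 : ((TensorTriangulated.e Y).hom ▷ V) ≫ (β_ (Y⟦(1 : ℤ)⟧) V).hom =
      (β_ (Y ⊗ ((𝟙_ T)⟦(1 : ℤ)⟧)) V).hom ≫ (V ◁ (TensorTriangulated.e Y).hom) :=
    BraidedCategory.braiding_naturality_left _ _
  have h2 : (V ◁ (TensorTriangulated.e Y).hom) ≫ (csh V 1 Y).hom =
      (α_ V Y ((𝟙_ T)⟦(1 : ℤ)⟧)).inv ≫ (TensorTriangulated.e (V ⊗ Y)).hom := by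
    rw [csh_one, ← MonoidalCategory.whiskerLeft_comp_assoc, Iso.hom_inv_id,
      MonoidalCategory.whiskerLeft_id, Category.id_comp]
  have h3 := TensorTriangulated.e_naturality (β_ V Y).hom
  rw [sOne, sOne, shR_hom, comp_whiskerRight]
  simp only [Category.assoc]
  rw [reassoc_of% h1, reassoc_of% h2, ← h3, BraidedCategory.braiding_tensor_left_hom,
    BraidedCategory.braiding_tensor_right_hom]
  simp only [Category.assoc, Iso.hom_inv_id_assoc, ← comp_whiskerRight_assoc,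
    SymmetricCategory.symmetry]
  simp

variable {R : T} [MonObj R] (U : UnitCof R)

@[reassoc]
lemma bdry_whiskerRight (Y V : T) : (U.bdry Y ▷ V) ≫ (shR Y V).hom =
    (α_ U.J Y V).hom ≫ U.bdry (Y ⊗ V) := by
  rw [UnitCof.bdry_eq, UnitCof.bdry_eq, comp_whiskerRight, Category.assoc, sOne_shR,
    associator_naturality_left_assoc]

/-- `B s Y ⊗ V ≅ B s (Y ⊗ V)`. -/
def bV (V : T) : ∀ (s : ℕ) (Y : T), U.cobar.B s Y ⊗ V ≅ U.cobar.B s (Y ⊗ V)
  | 0, _ => Iso.refl _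
  | s + 1, Y => bV V s (U.J ⊗ Y) ≪≫
      ⟨U.cobar.Bm s (α_ U.J Y V).hom, U.cobar.Bm s (α_ U.J Y V).inv,
        by rw [← CobarData.Bm_comp, Iso.hom_inv_id, CobarData.Bm_id],
        by rw [← CobarData.Bm_comp, Iso.inv_hom_id, CobarData.Bm_id]⟩

/-- `Q s Y ⊗ V ≅ Q s (Y ⊗ V)`. -/
def nV (V : T) : ∀ (s : ℕ) (Y : T), U.cobar.Q s Y ⊗ V ≅ U.cobar.Q s (Y ⊗ V)
  | 0, _ => Iso.refl _
  | s + 1, Y => nV V s (R ⊗ Y) ≪≫
      ⟨U.cobar.Qm s (α_ R Y V).hom, U.cobar.Qm s (α_ R Y V).inv,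
        by rw [← CobarData.Qm_comp, Iso.hom_inv_id, CobarData.Qm_id],
        by rw [← CobarData.Qm_comp, Iso.inv_hom_id, CobarData.Qm_id]⟩

lemma bV_zero (V Y : T) : (bV U V 0 Y).hom = 𝟙 _ := rfl

lemma bV_succ (V : T) (s : ℕ) (Y : T) : (bV U V (s + 1) Y).hom =
    (bV U V s (U.J ⊗ Y)).hom ≫ U.cobar.Bm s (α_ U.J Y V).hom := rfl

lemma nV_zero (V Y : T) : (nV U V 0 Y).hom = 𝟙 _ := rfl

lemma nV_succ (V : T) (s : ℕ) (Y : T) : (nV U V (s + 1) Y).hom =
    (nV U V s (R ⊗ Y)).hom ≫ U.cobar.Qm s (α_ R Y V).hom := rfl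

@[reassoc]
lemma bV_nat (V : T) (s : ℕ) {Y Y' : T} (f : Y ⟶ Y') :
    (U.cobar.Bm s f ▷ V) ≫ (bV U V s Y').hom = (bV U V s Y).hom ≫ U.cobar.Bm s (f ▷ V) := by
  induction s generalizing Y Y' with
  | zero => exact (Category.comp_id _).trans (Category.id_comp _).symm
  | succ s ih =>
    rw [bV_succ, bV_succ, Category.assoc]
    have h1 := ih (U.J ◁ f)
    have h2 : U.cobar.Bm s ((U.J ◁ f) ▷ V) ≫ U.cobar.Bm s (α_ U.J Y' V).hom =
        U.cobar.Bm s (α_ U.J Y V).hom ≫ U.cobar.Bm (s + 1) (f ▷ V) := by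
      rw [CobarData.Bm_succ, ← CobarData.Bm_comp, ← CobarData.Bm_comp,
        associator_naturality_middle]
    rw [← h2]
    exact (reassoc_of% h1) _

@[reassoc]
lemma nV_nat (V : T) (s : ℕ) {Y Y' : T} (f : Y ⟶ Y') :
    (U.cobar.Qm s f ▷ V) ≫ (nV U V s Y').hom = (nV U V s Y).hom ≫ U.cobar.Qm s (f ▷ V) := by
  induction s generalizing Y Y' with
  | zero => exact (Category.comp_id _).trans (Category.id_comp _).symm
  | succ s ih =>
    rw [nV_succ, nV_succ, Category.assoc]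
    have h1 := ih (R ◁ f)
    have h2 : U.cobar.Qm s ((R ◁ f) ▷ V) ≫ U.cobar.Qm s (α_ R Y' V).hom =
        U.cobar.Qm s (α_ R Y V).hom ≫ U.cobar.Qm (s + 1) (f ▷ V) := by
      rw [CobarData.Qm_succ, ← CobarData.Qm_comp, ← CobarData.Qm_comp,
        associator_naturality_middle]
    rw [← h2]
    exact (reassoc_of% h1) _

/-- The isomorphism on the `E₁`-terms. -/
def wV (V : T) (s : ℕ) (Y : T) : (R ⊗ U.cobar.B s Y) ⊗ V ≅ R ⊗ U.cobar.B s (Y ⊗ V) :=
  α_ R (U.cobar.B s Y) V ≪≫ whiskerLeftIso R (bV U V s Y)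

lemma wV_hom (V : T) (s : ℕ) (Y : T) : (wV U V s Y).hom =
    (α_ R (U.cobar.B s Y) V).hom ≫ (R ◁ (bV U V s Y).hom) := rfl

lemma wV_succ (V : T) (s : ℕ) (Y : T) : (wV U V (s + 1) Y).hom =
    (wV U V s (U.J ⊗ Y)).hom ≫ (R ◁ U.cobar.Bm s (α_ U.J Y V).hom) := by
  rw [wV_hom, wV_hom, bV_succ, MonoidalCategory.whiskerLeft_comp]
  simp only [Category.assoc]

@[reassoc]
lemma unitMap_whiskerRight_assoc' (Z V : T) :
    (unitMap R Z ▷ V) ≫ (α_ R Z V).hom = unitMap R (Z ⊗ V) := by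
  simp [unitMap]

lemma wV_a (V : T) (s : ℕ) (Y : T) :
    (unitMap R (U.cobar.B s Y) ▷ V) ≫ (wV U V s Y).hom =
      (bV U V s Y).hom ≫ unitMap R (U.cobar.B s (Y ⊗ V)) := by
  rw [wV_hom, unitMap_whiskerRight_assoc'_assoc, ← unitMap_nat]

lemma wV_b (V : T) (s : ℕ) (Y : T) :
    (U.cobar.k s Y ▷ V) ≫ (bV U V (s + 1) Y).hom =
      (wV U V s Y).hom ≫ U.cobar.k s (Y ⊗ V) := by
  induction s generalizing Y with
  | zero =>
    have h1 : ((U.ρ ▷ Y) ▷ V) ≫ (α_ U.J Y V).hom = (α_ R Y V).hom ≫ (U.ρ ▷ (Y ⊗ V)) :=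
      associator_naturality_left _ _ _
    have h2 : (wV U V 0 Y).hom = (α_ R Y V).hom := by
      rw [wV_hom, bV_zero]
      exact (congrArg _ (MonoidalCategory.whiskerLeft_id _ _)).trans (Category.comp_id _)
    have h3 : (bV U V 1 Y).hom = (α_ U.J Y V).hom := Category.id_comp _
    rw [h2]
    refine (congrArg _ h3).trans h1
  | succ s ih =>
    have h1 := U.cobar.k_naturality s (α_ U.J Y V).hom
    have h2 := ih (U.J ⊗ Y)
    rw [bV_succ, wV_succ, Category.assoc]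
    refine ((reassoc_of% h2) _).trans ?_
    exact congrArg _ h1.symm

lemma wV_c (V : T) (s : ℕ) (Y : T) :
    ((U.bd s Y ▷ V) ≫ (shR (U.cobar.B s Y) V).hom) ≫ ((bV U V s Y).hom)⟦(1 : ℤ)⟧' =
      (bV U V (s + 1) Y).hom ≫ U.bd s (Y ⊗ V) := by
  induction s generalizing Y with
  | zero =>
    have h3 : (bV U V 1 Y).hom = (α_ U.J Y V).hom := Category.id_comp _
    have h4 : ((bV U V 0 Y).hom)⟦(1 : ℤ)⟧' = 𝟙 _ := CategoryTheory.Functor.map_id _ _
    refine (congrArg _ h4).trans ((Category.comp_id _).trans ?_)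
    refine (bdry_whiskerRight U Y V).trans ?_
    exact congrArg (fun x => x ≫ U.bdry (Y ⊗ V)) h3.symm
  | succ s ih =>
    have h1 := U.bd_naturality s (α_ U.J Y V).hom
    rw [bV_succ, bV_succ U V (s + 1), Functor.map_comp, Category.assoc, Category.assoc]
    have h2 := ih (U.J ⊗ Y)
    simp only [Category.assoc] at h2
    refine ((reassoc_of% h2) _).trans ?_
    rw [← h1]
    rfl

/-- Compatibility with the projection of the cobar complex. -/
@[reassoc]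
lemma q_wV (V : T) (s : ℕ) (Y : T) :
    (U.cobar.q s Y ▷ V) ≫ (wV U V s Y).hom =
      (nV U V (s + 1) Y).hom ≫ U.cobar.q s (Y ⊗ V) := by
  induction s generalizing Y with
  | zero =>
    have h2 : (wV U V 0 Y).hom = (α_ R Y V).hom := by
      rw [wV_hom, bV_zero]
      exact (congrArg _ (MonoidalCategory.whiskerLeft_id _ _)).trans (Category.comp_id _)
    have h3 : (nV U V 1 Y).hom = (α_ R Y V).hom := Category.id_comp _
    rw [h2, CobarData.q_zero, CobarData.q_zero]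
    refine (congrArg (fun x => x ≫ (α_ R Y V).hom) (id_whiskerRight _ _)).trans ?_
    refine (Category.id_comp _).trans ?_
    exact h3.symm.trans (Category.comp_id _).symm
  | succ s ih =>
    have h1 := nV_nat U V (s + 1) (U.ρ ▷ Y)
    have h2 := ih (U.J ⊗ Y)
    have h4 := U.cobar.q_naturality s (α_ U.J Y V).hom
    have h5 : U.cobar.Qm (s + 1) ((U.ρ ▷ Y) ▷ V) ≫ U.cobar.Qm (s + 1) (α_ U.J Y V).hom =
        U.cobar.Qm (s + 1) (α_ R Y V).hom ≫ U.cobar.Qm (s + 1) (U.ρ ▷ (Y ⊗ V)) := by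
      rw [← CobarData.Qm_comp, ← CobarData.Qm_comp, associator_naturality_left]
    rw [CobarData.q_succ, CobarData.q_succ, comp_whiskerRight, wV_succ, Category.assoc,
      nV_succ U V (s + 1)]
    rw [reassoc_of% h2, Category.assoc, ← h4, reassoc_of% h1, reassoc_of% h5]

end Vale.Agent.P257.H820
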